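import Vale.Agent.P284.H338.ES
import Vale.Agent.P284.H625.NS.ExtMod
import Vale.Agent.P284.H501.ExtS
import Mathlib.Analysis.Calculus.DifferentialForm.Basic

/-!
# P284 (helper338), module NS (e), part 2: adapted charts of the relative form, definitions

`S = O ∧ Θ` is a closed `W`-valued `(q+1)`-form on `E`, `O = dt_1 ∧ … ∧ dt_q`; `V = O ∧ Λ^(r+1) Θ`,
`V' = O ∧ Λ^r Θ`, and `O ∧ Λ^(r+2) Θ = 0`.
-/

open scoped Manifold ContDiff Topology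
open Filter

noncomputable section

namespace Vale.Agent.P284.H338

open Vale.Agent.P272.K Vale.Agent.P284.H573 Vale.Agent.P284.H625 Vale.Agent.P284.H894.G
  Vale.Agent.P284.H501

section
variable {n q r : ℕ} {X E : Type} [TopologicalSpace X] [ChartedSpace (Cm n) X]
  [TopologicalSpace E] {W T₂ T₁ T₀ : Type} [NormedAddCommGroup W] [InnerProductSpace ℂ W]
  [NormedAddCommGroup T₂] [InnerProductSpace ℂ T₂]
  [NormedAddCommGroup T₁] [InnerProductSpace ℂ T₁] [CompleteSpace T₁]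
  [NormedAddCommGroup T₀] [InnerProductSpace ℂ T₀] [CompleteSpace T₀]

/-- `(b, F)` is a chart at `y` which is adapted to `f_1, …, f_(r+1) ∈ W`: `S = O ∧ d(F ∘ b)`,
`b = (t, ⟨f_a, F ∘ b⟩)` is a submersion, and `V`, `V'` are the pullbacks of `D`. -/
structure AdAt (p : E → X) (t : E → Cm q) (S : E → Chart n X → Cm n [⋀^Fin (q + 1)]→L[ℂ] W)
    (S₁ : TPow W T₁ (r + 1)) (S₀ : TPow W T₀ r)
    (V : E → Chart n X → Cm n [⋀^Fin (q + (r + 1))]→L[ℂ] T₁)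
    (V' : E → Chart n X → Cm n [⋀^Fin (q + r)]→L[ℂ] T₀) (f : Fin (r + 1) → W) (y : E)
    (e : Chart n X) (b : Cm n → Cm (q + (r + 1))) (D : Dat q (q + (r + 1)) T₁ T₀)
    (F : Cm (q + (r + 1)) → W) : Prop where
  basic : BasicAt (k := q + r) p t V V' y e b D
  surj : Function.Surjective (fderiv ℂ b (e (p y)))
  adc : AdC D F (b (e (p y))) (S₁.μ f)
    (fun a => ((-1 : ℂ) ^ (q + (a : ℕ))) • S₀.μ (f ∘ a.succAbove))
    (fun a h => S₁.μ (Function.update f a h))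
  dual : ∀ᶠ x in 𝓝 (b (e (p y))), ∀ a : Fin (r + 1), inner ℂ (f a) (F x) = x (Fin.natAdd q a)
  rel : ∀ᶠ y' in 𝓝 y, IsW (fderiv ℂ (fun z => tq (b z)) (e (p y'))) (S y' e)
    (fderiv ℂ (fun z => F (b z)) (e (p y')))
  t0 : ∀ᶠ x in 𝓝 (b (e (p y))), D.t x = tq x
  v_eq : ∀ᶠ x in 𝓝 (b (e (p y))), D.v x =
    gf (r + 1) (tqL q (r + 1)) (fun v => fderiv ℂ F x v) S₁.μ fun c => Pi.single c 1
  w_eq : ∀ᶠ x in 𝓝 (b (e (p y))), ∀ i : Fin (q + r + 1), D.w x i = ((-1 : ℂ) ^ (i : ℕ)) •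
    gf r (tqL q (r + 1)) (fun v => fderiv ℂ F x v) S₀.μ
      fun c : Fin (q + r) => (Pi.single (i.succAbove c) 1 : Cm (q + r + 1))

/-- The relative form `S` on `E` with the forms `V = O ∧ Λ^(r+1) Θ`, `V' = O ∧ Λ^r Θ`, of maximal
rank `r + 1`. -/
structure SDat (p : E → X) (t : E → Cm q) (S : E → Chart n X → Cm n [⋀^Fin (q + 1)]→L[ℂ] W)
    (S₂ : TPow W T₂ (r + 2)) (S₁ : TPow W T₁ (r + 1)) (S₀ : TPow W T₀ r)
    (V : E → Chart n X → Cm n [⋀^Fin (q + (r + 1))]→L[ℂ] T₁)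
    (V' : E → Chart n X → Cm n [⋀^Fin (q + r)]→L[ℂ] T₀) : Prop where
  rep : ∀ y (e : Chart n X), At e (p y) → ∃ f, H501.Rep p t y e f
  reg : ∀ y (e : Chart n X) f, At e (p y) → H501.Rep p t y e f →
    ∃ᶠ z in 𝓝 (e (p y)), Function.Surjective (fderiv ℂ f z)
  form : FormE p S
  /-- `S` is closed -/
  closed : ∀ y e (s : Cm n → Cm n [⋀^Fin (q + 1)]→L[ℂ] W), At e (p y) →
    AnalyticAt ℂ s (e (p y)) → (∀ᶠ y' in 𝓝 y, S y' e = s (e (p y'))) →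
    ∀ᶠ z in 𝓝 (e (p y)), extDeriv s z = 0
  /-- `S = O ∧ Θ` where `dt` is onto -/
  rel : ∀ y e f, At e (p y) → H501.Rep p t y e f → Function.Surjective (fderiv ℂ f (e (p y))) →
    ∀ (ξ : Fin (q + 1) → Cm n) (i j : Fin (q + 1)), i ≠ j → fderiv ℂ f (e (p y)) (ξ i) = 0 →
    fderiv ℂ f (e (p y)) (ξ j) = 0 → S y e ξ = 0
  formV : FormE p V
  isV : IsG p t S S₁.μ V
  formV' : FormE p V'
  isV' : IsG p t S S₀.μ V'
  /-- the rank is at most `r + 1` -/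
  max : ∀ y e f, At e (p y) → H501.Rep p t y e f → Function.Surjective (fderiv ℂ f (e (p y))) →
    ∀ Θ : Cm n →L[ℂ] W, IsW (fderiv ℂ f (e (p y))) (S y e) Θ →
    ∀ ξ, gf (r + 2) (fderiv ℂ f (e (p y))) Θ S₂.μ ξ = 0
  /-- the rank is `r + 1` somewhere -/
  ne : ∃ y e, At e (p y) ∧ ∃ ξ, V y e ξ ≠ 0

end

/-- helper625's local normal form. -/
def LocFormStmt : Prop :=
  ∀ (n q r : ℕ) (W T₂ : Type) [NormedAddCommGroup W] [InnerProductSpace ℂ W] [CompleteSpace W]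
    [NormedAddCommGroup T₂] [InnerProductSpace ℂ T₂] (S₂ : TPow W T₂ (r + 2))
    (t : Cm n → Cm q) (s : Cm n → Cm n [⋀^Fin (q + 1)]→L[ℂ] W) (z₀ : Cm n),
    AnalyticAt ℂ t z₀ → AnalyticAt ℂ s z₀ → (∀ᶠ z in 𝓝 z₀, extDeriv s z = 0) →
    (∀ᶠ z in 𝓝 z₀, ∀ (ξ : Fin (q + 1) → Cm n) (i j : Fin (q + 1)), i ≠ j →
      fderiv ℂ t z (ξ i) = 0 → fderiv ℂ t z (ξ j) = 0 → s z ξ = 0) →
    Function.Surjective (fderiv ℂ t z₀) →
    (∀ᶠ z in 𝓝 z₀, ∀ Θ : Cm n →L[ℂ] W, IsW (fderiv ℂ t z) (s z) Θ →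
      ∀ ξ, gf (r + 2) (fderiv ℂ t z) Θ S₂.μ ξ = 0) →
    ∀ (f : Fin (r + 1) → W), (∀ Θ : Cm n →L[ℂ] W, IsW (fderiv ℂ t z₀) (s z₀) Θ →
      ∃ ξ, (gfM (fderiv ℂ t z₀) Θ f ξ).det ≠ 0) →
    ∃ (b : Cm n → Cm (q + (r + 1))) (F : Cm (q + (r + 1)) → W), AnalyticAt ℂ b z₀ ∧
      Function.Surjective (fderiv ℂ b z₀) ∧ AnalyticAt ℂ F (b z₀) ∧
      (∀ᶠ z in 𝓝 z₀, t z = tq (b z)) ∧
      (∀ᶠ z in 𝓝 z₀, IsW (fderiv ℂ t z) (s z) (fderiv ℂ (fun z => F (b z)) z)) ∧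
      ∀ᶠ x in 𝓝 (b z₀), ∀ a : Fin (r + 1), inner ℂ (f a) (F x) = x (Fin.natAdd q a)

end Vale.Agent.P284.H338
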