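import Vale.Agent.P284.H338.Ind
import Vale.Agent.P284.H213.Q.GrpQ

/-!
# P284 (helper338), T3: the quotient `Γ ⧸ K` is amenable for a lattice of periods
-/

open scoped InnerProductSpace Pointwise
open Set

noncomputable section

namespace Vale.Agent.P284.H338.Ind

open Vale.Agent.P272.K Vale.Agent.P284.H894.G Vale.Agent.P284.H119.Kaz Vale.Agent.P284.H213.Grp
  Vale.Agent.P284.H213.Q

theorem folner_finite {A : Type*} [Group A] [Finite A] : Folner A := by
  intro S _ ε hε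
  refine ⟨univ, finite_univ, univ_nonempty, fun s _ => ?_⟩
  have : (s • (univ : Set A)) \ univ = ∅ := by simp
  rw [this, Set.ncard_empty, Nat.cast_zero]
  positivity

/-- the quotient by a normal subgroup of finite index of the kernel of the periods is amenable -/
theorem folner_quot {Γ : Type} [Group Γ] {q : ℕ} {c : Γ → Cm q} (hc : LatChar Γ q c)
    (K : Subgroup Γ) [K.Normal] (hK : ∀ g ∈ K, c g = 0)
    (hfi : ∃ F : Set Γ, F.Finite ∧ ∀ g, c g = 0 → ∃ f ∈ F, f⁻¹ * g ∈ K) : Folner (Γ ⧸ K) := by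
  have h1 : ∀ a b : Γ, a⁻¹ * b ∈ K → c a = c b := by
    intro a b h
    have h2 := hc.add a (a⁻¹ * b)
    rw [mul_inv_cancel_left, hK _ h, add_zero] at h2
    exact h2.symm
  let c' : Γ ⧸ K → Cm q := Quotient.lift c fun a b h => h1 a b (QuotientGroup.leftRel_apply.1 h)
  have hc' : ∀ g : Γ, c' (g : Γ ⧸ K) = c g := fun g => rfl
  have hrange : range c' = range c := by
    ext v
    constructor
    · rintro ⟨x, rfl⟩
      obtain ⟨a, rfl⟩ := QuotientGroup.mk_surjective x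
      exact ⟨a, rfl⟩
    · rintro ⟨a, rfl⟩
      exact ⟨(a : Γ ⧸ K), rfl⟩
  have hlat : LatChar (Γ ⧸ K) q c' := by
    refine ⟨fun x y => ?_, fun R => ?_, by rw [hrange]; exact hc.span⟩
    · obtain ⟨a, rfl⟩ := QuotientGroup.mk_surjective x
      obtain ⟨b, rfl⟩ := QuotientGroup.mk_surjective y
      exact hc.add a b
    · refine (hc.disc R).subset ?_
      rintro v ⟨⟨x, rfl⟩, h⟩
      obtain ⟨a, rfl⟩ := QuotientGroup.mk_surjective x
      exact ⟨⟨a, rfl⟩, h⟩
  have hc0 : c' 1 = 0 := by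
    have h2 := hlat.add 1 1
    rw [mul_one] at h2
    exact left_eq_add.1 h2
  let K' : Subgroup (Γ ⧸ K) :=
    { carrier := {x | c' x = 0}
      mul_mem' := fun {x y} hx hy => by
        show c' (x * y) = 0
        rw [hlat.add, show c' x = 0 from hx, show c' y = 0 from hy, add_zero]
      one_mem' := hc0
      inv_mem' := fun {x} hx => by
        have h2 := hlat.add x⁻¹ x
        rw [inv_mul_cancel, hc0, show c' x = 0 from hx, add_zero] at h2
        exact h2.symm }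
  have hfin : Finite K' := by
    obtain ⟨F, hF, hF'⟩ := hfi
    have h2 : (K' : Set (Γ ⧸ K)) ⊆ (fun g : Γ => (g : Γ ⧸ K)) '' F := by
      intro x hx
      obtain ⟨a, rfl⟩ := QuotientGroup.mk_surjective x
      obtain ⟨f, hf, hf'⟩ := hF' a hx
      exact ⟨f, hf, QuotientGroup.eq.2 hf'⟩
    exact ((hF.image _).subset h2).to_subtype
  exact folner_of_lat hlat K' (fun g => Iff.rfl) folner_finite

/-- **(R1)** for a lattice of periods -/
theorem exists_rep_lat {Γ : Type} [Group Γ] {q : ℕ} {c : Γ → Cm q} (hc : LatChar Γ q c)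
    (K : Subgroup Γ) (hn : K.Normal) (hK : ∀ g ∈ K, c g = 0)
    (hfi : ∃ F : Set Γ, F.Finite ∧ ∀ g, c g = 0 → ∃ f ∈ F, f⁻¹ * g ∈ K) (hk : ¬ Kazhdan K)
    (S : Set Γ) (hS : S.Finite) {ε : ℝ} (hε : 0 < ε) :
    ∃ (H : Type) (_ : NormedAddCommGroup H) (_ : InnerProductSpace ℝ H) (_ : CompleteSpace H)
      (π : Γ →* (H ≃ₗᵢ[ℝ] H)) (ξ : H), ‖ξ‖ = 1 ∧ (∀ s ∈ S, ‖π s ξ - ξ‖ ≤ ε) ∧
      ∀ η : H, (∀ k ∈ K, π k η = η) → η = 0 :=
  exists_rep K (folner_quot hc K hK hfi) hk S hS hε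

end Vale.Agent.P284.H338.Ind
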