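import Vale.Agent.P284.H338.EDatS
import Vale.Agent.P284.H625.NS.Clo
import Mathlib.LinearAlgebra.Alternating.Basic
import Mathlib.LinearAlgebra.Dimension.StrongRankCondition

/-!
# P284 (helper338), module NS (e), part 2: choice of the rank
-/

open scoped Manifold ContDiff Topology
open Filter

noncomputable section

set_option linter.unusedSectionVars false

namespace Vale.Agent.P284.H338

open Vale.Agent.P272.K Vale.Agent.P284.H573 Vale.Agent.P284.H625 Vale.Agent.P284.H894.G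
  Vale.Agent.P284.H501 Vale.Agent.P284.H894.W

/-- an alternating form of large degree is zero -/
lemma alt_zero_of_lt {n m : ℕ} {T : Type*} [NormedAddCommGroup T] [NormedSpace ℂ T] (h : n < m)
    (A : Cm n [⋀^Fin m]→L[ℂ] T) (ξ : Fin m → Cm n) : A ξ = 0 := by
  have h1 : ¬ LinearIndependent ℂ ξ := by
    intro hl
    have := hl.fintype_card_le_finrank
    simp at this
    omega
  exact A.toAlternatingMap.map_linearDependent ξ h1

section
variable {n q : ℕ} {X E : Type} [TopologicalSpace X] [ChartedSpace (Cm n) X]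
  [TopologicalSpace E] {p : E → X} {t : E → Cm q}
  {W : Type} [NormedAddCommGroup W] [InnerProductSpace ℂ W] [CompleteSpace W]
  {S : E → Chart n X → Cm n [⋀^Fin (q + 1)]→L[ℂ] W}

/-- the relative form `S` has rank at least `k` somewhere -/
def RkGe (n : ℕ) {q : ℕ} {X E : Type} [TopologicalSpace X] [ChartedSpace (Cm n) X]
    [TopologicalSpace E] (p : E → X) (t : E → Cm q) {W : Type} [NormedAddCommGroup W]
    [InnerProductSpace ℂ W] (S : E → Chart n X → Cm n [⋀^Fin (q + 1)]→L[ℂ] W) (k : ℕ) : Prop :=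
  ∃ (T : Type) (_ : NormedAddCommGroup T) (_ : InnerProductSpace ℂ T) (_ : CompleteSpace T)
    (Sk : TPow W T k) (G : E → Chart n X → Cm n [⋀^Fin (q + k)]→L[ℂ] T),
    FormE p G ∧ IsG p t S Sk.μ G ∧ ∃ y e, At e (p y) ∧ ∃ ξ, G y e ξ ≠ 0

lemma not_rkGe {k : ℕ} (h : n < q + k) : ¬ RkGe n p t S k := by
  rintro ⟨T, _, _, _, Sk, G, -, -, y, e, -, ξ, hξ⟩
  exact hξ (alt_zero_of_lt h _ _)

variable [IsManifold 𝓘(ℂ, Cm n) ω X]

lemma rkGe_one (hext : ExtStmt) (hp : IsCoveringMap p)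
    (hrep : ∀ y (e : Chart n X), At e (p y) → ∃ f, H501.Rep p t y e f)
    (hreg : ∀ y (e : Chart n X) f, At e (p y) → H501.Rep p t y e f →
      ∃ᶠ z in 𝓝 (e (p y)), Function.Surjective (fderiv ℂ f z))
    (hS : RelS p t S) (hne : ∃ y e, At e (p y) ∧ ∃ ξ, S y e ξ ≠ 0) : RkGe n p t S 1 := by
  have hl := hp.isLocalHomeomorph
  obtain ⟨G, hG, hG'⟩ := hext n q X E p hp t hrep hreg W S hS 1 W (tp1 W).μ
  refine ⟨W, inferInstance, inferInstance, inferInstance, tp1 W, G, hG, hG', ?_⟩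
  obtain ⟨y, e, he, ξ, hξ⟩ := hne
  have h1 := (reg_dense hl hrep hreg) y
  rw [mem_closure_iff_frequently] at h1
  obtain ⟨y', h2, h3, h4⟩ :=
    (h1.and_eventually ((form_ne_near hl hS.form he hξ).and (at_near hl he))).exists
  obtain ⟨f, hf⟩ := hrep y' e h4
  have hs := (reg_iff hl h4 hf).1 h2
  obtain ⟨Θ, hΘ⟩ := exists_isW hs (hS.rel y' e f h4 hf hs)
  refine ⟨y', e, h4, ξ, ?_⟩
  rw [hG' y' e f h4 hf hs Θ hΘ ξ]
  intro h5
  exact h3 ((hΘ ξ).trans h5)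

/-- **choice of the rank** -/
theorem exists_rank (hext : ExtStmt) (hp : IsCoveringMap p)
    (hrep : ∀ y (e : Chart n X), At e (p y) → ∃ f, H501.Rep p t y e f)
    (hreg : ∀ y (e : Chart n X) f, At e (p y) → H501.Rep p t y e f →
      ∃ᶠ z in 𝓝 (e (p y)), Function.Surjective (fderiv ℂ f z))
    (hS : RelS p t S)
    (hc : ∀ y e (s : Cm n → Cm n [⋀^Fin (q + 1)]→L[ℂ] W), At e (p y) →
      AnalyticAt ℂ s (e (p y)) → (∀ᶠ y' in 𝓝 y, S y' e = s (e (p y'))) →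
      ∀ᶠ z in 𝓝 (e (p y)), extDeriv s z = 0)
    (hne : ∃ y e, At e (p y) ∧ ∃ ξ, S y e ξ ≠ 0) :
    ∃ (r : ℕ) (T₂ : Type) (_ : NormedAddCommGroup T₂) (_ : InnerProductSpace ℂ T₂)
      (_ : CompleteSpace T₂) (T₁ : Type) (_ : NormedAddCommGroup T₁) (_ : InnerProductSpace ℂ T₁)
      (_ : CompleteSpace T₁) (T₀ : Type) (_ : NormedAddCommGroup T₀) (_ : InnerProductSpace ℂ T₀)
      (_ : CompleteSpace T₀) (S₂ : TPow W T₂ (r + 2)) (S₁ : TPow W T₁ (r + 1)) (S₀ : TPow W T₀ r)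
      (V : E → Chart n X → Cm n [⋀^Fin (q + (r + 1))]→L[ℂ] T₁)
      (V' : E → Chart n X → Cm n [⋀^Fin (q + r)]→L[ℂ] T₀), SDat p t S S₂ S₁ S₀ V V' := by
  have hr : ∃ r, RkGe n p t S (r + 1) ∧ ¬ RkGe n p t S (r + 2) := by
    by_contra hcon
    push Not at hcon
    have h1 : ∀ r, RkGe n p t S (r + 1) := by
      intro r
      induction r with
      | zero => exact rkGe_one hext hp hrep hreg hS hne
      | succ r ih => exact hcon r ih
    exact not_rkGe (by omega) (h1 n)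
  obtain ⟨r, ⟨T₁, i1, i2, i3, S₁, V, hV, hV', hne'⟩, hr2⟩ := hr
  obtain ⟨T₂, j1, j2, j3, ⟨S₂⟩⟩ := exists_tpow W (r + 2)
  obtain ⟨T₀, k1, k2, k3, ⟨S₀⟩⟩ := exists_tpow W r
  obtain ⟨G₂, hG₂, hG₂'⟩ := hext n q X E p hp t hrep hreg W S hS (r + 2) T₂ S₂.μ
  obtain ⟨V', hV0, hV0'⟩ := hext n q X E p hp t hrep hreg W S hS r T₀ S₀.μ
  refine ⟨r, T₂, j1, j2, j3, T₁, i1, i2, i3, T₀, k1, k2, k3, S₂, S₁, S₀, V, V', hrep, hreg,
    hS.form, hc, hS.rel, hV, hV', hV0, hV0', fun y e f he hf hs Θ hΘ ξ => ?_, hne'⟩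
  rw [← hG₂' y e f he hf hs Θ hΘ ξ]
  by_contra h
  exact hr2 ⟨T₂, j1, j2, j3, S₂, G₂, hG₂, hG₂', y, e, he, ξ, h⟩

end

end Vale.Agent.P284.H338
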