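import Vale.Agent.P284.H338.EForm
import Vale.Agent.P284.H338.AdS
import Vale.Agent.P284.H221.Rk
import Vale.Agent.P284.H894.W.Spec
import Mathlib.Analysis.Analytic.Uniqueness

/-!
# P284 (helper338), module NS (e), part 2: regular points, identity theorem for forms on `E`
-/

open scoped Manifold ContDiff Topology
open Filter

noncomputable section

namespace Vale.Agent.P284.H338

open Vale.Agent.P272.K Vale.Agent.P284.H573 Vale.Agent.P284.H625 Vale.Agent.P284.H894.G
  Vale.Agent.P284.H501 Vale.Agent.P284.H894.W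

variable {n q : ℕ} {X E : Type} [TopologicalSpace X] [ChartedSpace (Cm n) X]
  [TopologicalSpace E] {p : E → X}

lemma rep_of {t : E → Cm q} {y : E} {e : Chart n X} {f : Cm n → Cm q}
    (h : H501.Rep p t y e f) : Rep p e y f t := ⟨h.1, h.2⟩

lemma rep_to {t : E → Cm q} {y : E} {e : Chart n X} {f : Cm n → Cm q}
    (h : Rep p e y f t) : H501.Rep p t y e f := ⟨h.an, h.eq⟩

lemma rep_near (hp : IsLocalHomeomorph p) {t : E → Cm q} {y : E} {e : Chart n X}
    (he : At e (p y)) {f : Cm n → Cm q} (h : H501.Rep p t y e f) :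
    ∀ᶠ y' in 𝓝 y, H501.Rep p t y' e f := by
  filter_upwards [(rep_of h).near hp he] with y' h'
  exact rep_to h'

/-- a holomorphic form in the sense of helper501 -/
lemma isForm_of {k : ℕ} {T : Type} [NormedAddCommGroup T] [NormedSpace ℂ T]
    {V : E → Chart n X → Cm n [⋀^Fin k]→L[ℂ] T} (h : FormE p V) : IsForm p V := by
  refine ⟨fun y e he => ?_, fun y e e' he he' => ?_⟩
  · obtain ⟨s, h1, h2⟩ := h.holo y e he
    exact ⟨s, h1, h2⟩
  · ext ξ
    exact h.change y e e' he he' ξ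

section form
variable {k : ℕ} {T : Type} [NormedAddCommGroup T] [NormedSpace ℂ T] [CompleteSpace T]
  {V : E → Chart n X → Cm n [⋀^Fin k]→L[ℂ] T}

omit [CompleteSpace T] in
lemma form_zero_chart (hV : FormE p V) {y : E} {e e' : Chart n X} (he : At e (p y))
    (he' : At e' (p y)) (h : ∀ ξ, V y e ξ = 0) (ξ : Fin k → Cm n) : V y e' ξ = 0 := by
  rw [hV.change y e' e he' he ξ]
  exact h _

/-- **identity theorem** for holomorphic forms on the covering -/
theorem form_zero [PreconnectedSpace E] (hp : IsLocalHomeomorph p) (hV : FormE p V) {y₀ : E}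
    (h0 : ∀ᶠ y in 𝓝 y₀, ∀ e, At e (p y) → ∀ ξ, V y e ξ = 0) :
    ∀ y e, At e (p y) → ∀ ξ, V y e ξ = 0 := by
  set Q : Set E := {y | ∀ᶠ y' in 𝓝 y, ∀ e, At e (p y') → ∀ ξ, V y' e ξ = 0} with hQ
  have hQo : IsOpen Q := isOpen_iff_mem_nhds.2 fun y hy => hy.eventually_nhds
  have hQc : IsClosed Q := by
    rw [← closure_subset_iff_isClosed]
    intro y₁ hy₁
    set e := chartAt (Cm n) (p y₁) with he_def
    have he : At e (p y₁) := ⟨chart_mem_atlas _ _, mem_chart_source _ _⟩
    obtain ⟨s, hs, hsV⟩ := hV.holo y₁ e he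
    obtain ⟨ε, hε, hball⟩ := Metric.eventually_nhds_iff_ball.1 hs.eventually_analyticAt
    have hBc : IsPreconnected (Metric.ball (e (p y₁)) ε) := (convex_ball _ _).isPreconnected
    have hU : ∀ᶠ y' in 𝓝 y₁, e (p y') ∈ Metric.ball (e (p y₁)) ε ∧ At e (p y') ∧
        V y' e = s (e (p y')) :=
      ((tend_ep hp he).eventually (Metric.ball_mem_nhds _ hε)).and ((at_near hp he).and hsV)
    obtain ⟨y₂, hy₂, hy₂Q⟩ := (mem_closure_iff_frequently.1 hy₁).and_eventually
      hU.eventually_nhds |>.exists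
    have hz : s =ᶠ[𝓝 (e (p y₂))] 0 := by
      refine (ev_iff hp hy₂Q.self_of_nhds.2.1).1 ?_
      filter_upwards [hy₂, hy₂Q] with y' h1 h2
      rw [← h2.2.2]
      ext ξ
      exact h1 e h2.2.1 ξ
    have hall : Set.EqOn s 0 (Metric.ball (e (p y₁)) ε) :=
      AnalyticOnNhd.eqOn_zero_of_preconnected_of_eventuallyEq_zero (fun z hz => hball z hz) hBc
        hy₂Q.self_of_nhds.1 hz
    show ∀ᶠ y' in 𝓝 y₁, ∀ e, At e (p y') → ∀ ξ, V y' e ξ = 0
    filter_upwards [hU] with y' h2 e' he' ξ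
    refine form_zero_chart hV h2.2.1 he' (fun ξ => ?_) ξ
    rw [h2.2.2, hall h2.1]
    rfl
  have hQu : Q = Set.univ := IsClopen.eq_univ ⟨hQc, hQo⟩ ⟨y₀, h0⟩
  intro y
  have : y ∈ Q := hQu ▸ Set.mem_univ y
  exact this.self_of_nhds

omit [CompleteSpace T] in
/-- the set where `V` does not vanish is open -/
lemma form_ne_near (hp : IsLocalHomeomorph p) (hV : FormE p V) {y : E} {e : Chart n X}
    (he : At e (p y)) {ξ : Fin k → Cm n} (h : V y e ξ ≠ 0) : ∀ᶠ y' in 𝓝 y, V y' e ξ ≠ 0 := by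
  obtain ⟨s, hs, hsV⟩ := hV.holo y e he
  have h1 : ContinuousAt (fun z => s z ξ) (e (p y)) :=
    ((ContinuousAlternatingMap.apply ℂ (Cm n) T ξ).continuous.continuousAt).comp
      (f := s) hs.continuousAt
  have h2 : s (e (p y)) ξ ≠ 0 := by rwa [← hsV.self_of_nhds]
  filter_upwards [(tend_ep hp he).eventually (h1.eventually_ne h2), hsV] with y' h3 h4
  rw [h4]
  exact h3

/-- the points where `V ≠ 0` are dense -/
theorem form_ne_dense [PreconnectedSpace E] (hp : IsLocalHomeomorph p) (hV : FormE p V)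
    (hne : ∃ y e, At e (p y) ∧ ∃ ξ, V y e ξ ≠ 0) :
    Dense {y | ∃ e, At e (p y) ∧ ∃ ξ, V y e ξ ≠ 0} := by
  intro y₀
  by_contra h
  rw [mem_closure_iff_frequently, not_frequently] at h
  obtain ⟨y, e, he, ξ, hξ⟩ := hne
  refine hξ (form_zero hp hV (y₀ := y₀) ?_ y e he ξ)
  filter_upwards [h] with y' h1 e' he' ξ'
  by_contra h2
  exact h1 ⟨e', he', ξ', h2⟩

end form

section reg
variable [IsManifold 𝓘(ℂ, Cm n) ω X] {t : E → Cm q}

/-- regularity in one chart -/
theorem reg_iff (hp : IsLocalHomeomorph p) {y : E} {e : Chart n X} (he : At e (p y))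
    {f : Cm n → Cm q} (hf : H501.Rep p t y e f) :
    Reg (n := n) p t y ↔ Function.Surjective (fderiv ℂ f (e (p y))) := by
  constructor
  · intro h
    exact h e f he hf.2
  · intro hs e' f' he' hf'
    have h1 : f' =ᶠ[𝓝 (e' (p y))] fun z => f (e (e'.symm z)) := by
      refine (ev_iff hp he').1 ?_
      filter_upwards [hf', hf.2, at_near hp he'] with y' a b c
      rw [← a, b, e'.left_inv c.2]
    have h3 : e (e'.symm (e' (p y))) = e (p y) := by rw [e'.left_inv he'.2]
    have h4 := fderiv_fun_comp (𝕜 := ℂ) (g := f) (f := fun z => e (e'.symm z)) (e' (p y))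
      (by rw [h3]; exact hf.1.differentiableAt) (transition_differentiableAt he' he)
    rw [h1.fderiv_eq, h4, h3]
    exact hs.comp (H221.transition_surjective he' he)

theorem reg_near (hp : IsLocalHomeomorph p)
    (hrep : ∀ y (e : Chart n X), At e (p y) → ∃ f, H501.Rep p t y e f) {y : E}
    (h : Reg (n := n) p t y) : ∀ᶠ y' in 𝓝 y, Reg (n := n) p t y' := by
  set e := chartAt (Cm n) (p y) with he_def
  have he : At e (p y) := ⟨chart_mem_atlas _ _, mem_chart_source _ _⟩
  obtain ⟨f, hf⟩ := hrep y e he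
  have h1 := (reg_iff hp he hf).1 h
  have h2 : ∀ᶠ z in 𝓝 (e (p y)), Function.Surjective (fderiv ℂ f z) :=
    hf.1.fderiv.continuousAt.eventually_mem (surj_isOpen.mem_nhds h1)
  filter_upwards [(tend_ep hp he).eventually h2, rep_near hp he hf, at_near hp he]
    with y' h3 h4 h5
  exact (reg_iff hp h5 h4).2 h3

theorem reg_isOpen (hp : IsLocalHomeomorph p)
    (hrep : ∀ y (e : Chart n X), At e (p y) → ∃ f, H501.Rep p t y e f) :
    IsOpen {y | Reg (n := n) p t y} :=
  isOpen_iff_mem_nhds.2 fun _ hy => reg_near hp hrep hy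

theorem reg_dense (hp : IsLocalHomeomorph p)
    (hrep : ∀ y (e : Chart n X), At e (p y) → ∃ f, H501.Rep p t y e f)
    (hreg : ∀ y (e : Chart n X) f, At e (p y) → H501.Rep p t y e f →
      ∃ᶠ z in 𝓝 (e (p y)), Function.Surjective (fderiv ℂ f z)) :
    Dense {y | Reg (n := n) p t y} := by
  intro y
  rw [mem_closure_iff_frequently]
  set e := chartAt (Cm n) (p y) with he_def
  have he : At e (p y) := ⟨chart_mem_atlas _ _, mem_chart_source _ _⟩
  obtain ⟨f, hf⟩ := hrep y e he
  have h1 := hreg y e f he hf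
  rw [← map_ep hp he, frequently_map] at h1
  refine (h1.and_eventually ((rep_near hp he hf).and (at_near hp he))).mono ?_
  rintro y' ⟨h2, h3, h4⟩
  exact (reg_iff hp h4 h3).2 h2

end reg

end Vale.Agent.P284.H338
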