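import Vale.Agent.P284.H501.ExtS
import Vale.Agent.P284.H625.NS.ExtMod
import Mathlib.LinearAlgebra.Alternating.Basic
import Mathlib.LinearAlgebra.Alternating.DomCoprod
import Mathlib.LinearAlgebra.Multilinear.TensorProduct
import Mathlib.LinearAlgebra.Matrix.Determinant.Basic
import Mathlib.LinearAlgebra.Basis.Prod
import Mathlib.LinearAlgebra.Matrix.Block

/-!
# P284 (helper338): `O ∧ μ(Θ, …, Θ)` is alternating; `S = O ∧ Θ` for forms which vanish on two vertical
vectors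
-/

open scoped Topology TensorProduct
open Filter

noncomputable section

namespace Vale.Agent.P284.H338

open Vale.Agent.P272.K Vale.Agent.P284.H501 Vale.Agent.P284.H625

set_option linter.unusedSectionVars false

section
variable {n q k : ℕ} {W T : Type*} [AddCommGroup W] [Module ℂ W] [AddCommGroup T] [Module ℂ T]

/-- `ξ ↦ det (L ξ_1, …, L ξ_q) • μ(Θ ξ_(q+1), …)` -/
def gfm (L : Cm n →L[ℂ] Cm q) (Θ : Cm n →ₗ[ℂ] W) (μ : MultilinearMap ℂ (fun _ : Fin k => W) T) :
    MultilinearMap ℂ (fun _ : Fin (q + k) => Cm n) T :=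
  ((TensorProduct.lift (LinearMap.lsmul ℂ T)).compMultilinearMap
    (((Matrix.detRowAlternating (R := ℂ) (n := Fin q)).compLinearMap
      (L : Cm n →ₗ[ℂ] Cm q)).toMultilinearMap.domCoprod
        (μ.compLinearMap fun _ => Θ))).domDomCongr finSumFinEquiv

lemma gfm_apply (L : Cm n →L[ℂ] Cm q) (Θ : Cm n →ₗ[ℂ] W)
    (μ : MultilinearMap ℂ (fun _ : Fin k => W) T) (ξ : Fin (q + k) → Cm n) :
    gfm L Θ μ ξ = (Matrix.of fun i j : Fin q => L (ξ (Fin.castAdd k i)) j).det •
      μ fun a => Θ (ξ (Fin.natAdd q a)) := by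
  simp only [gfm, MultilinearMap.domDomCongr_apply, LinearMap.compMultilinearMap_apply,
    MultilinearMap.domCoprod_apply, TensorProduct.lift.tmul, LinearMap.lsmul_apply,
    finSumFinEquiv_apply_left, finSumFinEquiv_apply_right, MultilinearMap.compLinearMap_apply]
  rfl

/-- `O ∧ μ(Θ, …, Θ)` as an alternating map -/
def gfA (L : Cm n →L[ℂ] Cm q) (Θ : Cm n →ₗ[ℂ] W) (μ : MultilinearMap ℂ (fun _ : Fin k => W) T) :
    Cm n [⋀^Fin (q + k)]→ₗ[ℂ] T :=
  ((q.factorial : ℂ)⁻¹) • MultilinearMap.alternatization (gfm L Θ μ)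

lemma gfA_apply (L : Cm n →L[ℂ] Cm q) (Θ : Cm n →ₗ[ℂ] W)
    (μ : MultilinearMap ℂ (fun _ : Fin k => W) T) (ξ : Fin (q + k) → Cm n) :
    gfA L Θ μ ξ = gf k L Θ μ ξ := by
  rw [gfA, AlternatingMap.smul_apply, MultilinearMap.alternatization_apply, gf]
  congr 1
  refine Finset.sum_congr rfl fun σ _ => ?_
  rw [MultilinearMap.domDomCongr_apply, gfm_apply, Units.smul_def, ← Int.cast_smul_eq_zsmul ℂ]

/-- `O ∧ μ(Θ, …, Θ)` vanishes on `k + 1` vertical vectors; here two of them and `k = 1` -/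
lemma gf_vert (L : Cm n →L[ℂ] Cm q) (Θ : Cm n → W) (μ : (Fin 1 → W) → T)
    {ξ : Fin (q + 1) → Cm n} {i j : Fin (q + 1)} (hij : i ≠ j) (hi : L (ξ i) = 0)
    (hj : L (ξ j) = 0) : gf 1 L Θ μ ξ = 0 := by
  rw [gf]
  refine smul_eq_zero_of_right _ (Finset.sum_eq_zero fun σ _ => ?_)
  -- one of `i, j` is in the image of `σ ∘ castAdd`
  have key : ∃ l : Fin q, L (ξ (σ (Fin.castAdd 1 l))) = 0 := by
    have h1 : ∀ x : Fin (q + 1), x ≠ Fin.last q → ∃ l : Fin q, Fin.castAdd 1 l = x := by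
      intro x hx
      exact ⟨⟨x, Fin.val_lt_last hx⟩, by ext; simp⟩
    by_cases h2 : σ.symm i = Fin.last q
    · have h3 : σ.symm j ≠ Fin.last q := by
        intro h
        exact hij (σ.symm.injective (h2.trans h.symm))
      obtain ⟨l, hl⟩ := h1 _ h3
      exact ⟨l, by rw [hl, Equiv.apply_symm_apply]; exact hj⟩
    · obtain ⟨l, hl⟩ := h1 _ h2
      exact ⟨l, by rw [hl, Equiv.apply_symm_apply]; exact hi⟩
  obtain ⟨l, hl⟩ := key
  have h2 : (Matrix.of fun i j : Fin q => L (ξ (σ (Fin.castAdd 1 i))) j).det = 0 :=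
    Matrix.det_eq_zero_of_row_eq_zero l fun c => by
      rw [Matrix.of_apply, hl]
      rfl
  rw [h2, zero_smul, smul_zero]

end

section
variable {n q : ℕ} {W : Type} [NormedAddCommGroup W] [InnerProductSpace ℂ W]

/-- the trivial tensor power -/
def tp1 (W : Type) [NormedAddCommGroup W] [InnerProductSpace ℂ W] : TPow W W 1 where
  μ := ContinuousMultilinearMap.ofSubsingleton ℂ W W 0 (ContinuousLinearMap.id ℂ W)
  inner_μ a b := by simp
  map U := ⟨U, fun a => by simp⟩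

lemma tp1_μ (a : Fin 1 → W) : (tp1 W).μ a = a 0 := rfl

lemma gfM_castAdd {k : ℕ} (L : Cm n →L[ℂ] Cm q) (Θ : Cm n → W) (κ : Fin k → W)
    (ξ : Fin (q + k) → Cm n) (j : Fin q) (c : Fin (q + k)) :
    gfM L Θ κ ξ (Fin.castAdd k j) c = L (ξ c) j := by
  rw [gfM, Matrix.of_apply, Fin.addCases_left]

lemma gfM_natAdd {k : ℕ} (L : Cm n →L[ℂ] Cm q) (Θ : Cm n → W) (κ : Fin k → W)
    (ξ : Fin (q + k) → Cm n) (a : Fin k) (c : Fin (q + k)) :
    gfM L Θ κ ξ (Fin.natAdd q a) c = inner ℂ (κ a) (Θ (ξ c)) := by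
  rw [gfM, Matrix.of_apply, Fin.addCases_right]

/-- the value of `O ∧ Θ` on `(u_1, …, u_q, v)`, `L u_j = e_j`, `L v = 0` -/
lemma gf_snoc {L : Cm n →L[ℂ] Cm q} (Θ : Cm n → W) {u : Fin q → Cm n}
    (hu : ∀ j, L (u j) = Pi.single j 1) {v : Cm n} (hv : L v = 0) :
    gf 1 L Θ (fun w => w 0) (Fin.snoc (α := fun _ => Cm n) u v) = Θ v := by
  refine ext_inner_left ℂ fun κ => ?_
  have h1 := inner_gf (tp1 W) L Θ (fun _ => κ) (Fin.snoc (α := fun _ => Cm n) u v)
  have h2 : gf 1 L Θ (tp1 W).μ (Fin.snoc (α := fun _ => Cm n) u v) =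
      gf 1 L Θ (fun w => w 0) (Fin.snoc (α := fun _ => Cm n) u v) := rfl
  rw [tp1_μ, h2] at h1
  rw [h1, Matrix.det_of_isLowerTriangular]
  · rw [Fin.prod_univ_castSucc]
    have h3 : ∀ j : Fin q, gfM L Θ (fun _ : Fin 1 => κ) (Fin.snoc (α := fun _ => Cm n) u v)
        j.castSucc j.castSucc = 1 := by
      intro j
      refine (gfM_castAdd L Θ _ _ j j.castSucc).trans ?_
      rw [Fin.snoc_castSucc, hu, Pi.single_eq_same]
    have h4 : gfM L Θ (fun _ : Fin 1 => κ) (Fin.snoc (α := fun _ => Cm n) u v)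
        (Fin.last q) (Fin.last q) = inner ℂ κ (Θ v) := by
      refine (gfM_natAdd L Θ _ _ 0 (Fin.last q)).trans ?_
      rw [Fin.snoc_last]
    rw [Finset.prod_congr rfl fun j _ => h3 j, Finset.prod_const_one, one_mul, h4]
  · intro i c hic
    have hic' : i < c := hic
    obtain ⟨j, rfl⟩ : ∃ j : Fin q, Fin.castAdd 1 j = i :=
      ⟨⟨i, lt_of_lt_of_le hic' (Nat.lt_succ_iff.1 c.2)⟩, by ext; simp⟩
    rw [gfM_castAdd]
    refine Fin.lastCases (fun _ => ?_) (fun c' hc' => ?_) c hic'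
    · rw [Fin.snoc_last, hv]
      rfl
    · rw [Fin.snoc_castSucc, hu, Pi.single_eq_of_ne]
      intro h
      subst h
      exact absurd hc' (lt_irrefl _)

/-- Two alternating `(q+1)`-forms vanishing on two vertical vectors, which agree on the
`(u_1, …, u_q, v)`, `v` vertical, agree. -/
lemma alt_eq_of_vert {L : Cm n →L[ℂ] Cm q} {u : Fin q → Cm n}
    (hu : ∀ j, L (u j) = Pi.single j 1) {A B : Cm n [⋀^Fin (q + 1)]→ₗ[ℂ] W}
    (hA : ∀ (ξ : Fin (q + 1) → Cm n) (i j : Fin (q + 1)), i ≠ j → L (ξ i) = 0 → L (ξ j) = 0 →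
      A ξ = 0)
    (hB : ∀ (ξ : Fin (q + 1) → Cm n) (i j : Fin (q + 1)), i ≠ j → L (ξ i) = 0 → L (ξ j) = 0 →
      B ξ = 0)
    (h : ∀ v, L v = 0 → A (Fin.snoc (α := fun _ => Cm n) u v) =
      B (Fin.snoc (α := fun _ => Cm n) u v)) : A = B := by
  classical
  -- the adapted basis
  let s : Cm q →ₗ[ℂ] Cm n := Fintype.linearCombination ℂ u
  have hs : ∀ a, L (s a) = a := by
    intro a
    simp only [s, Fintype.linearCombination_apply, map_sum, map_smul, hu]
    ext j
    simp [Finset.sum_apply, Pi.single_apply]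
  let P : Cm n →ₗ[ℂ] LinearMap.ker (L : Cm n →ₗ[ℂ] Cm q) :=
    (LinearMap.id - s ∘ₗ (L : Cm n →ₗ[ℂ] Cm q)).codRestrict _ fun v => by
      rw [LinearMap.mem_ker]
      simp only [LinearMap.sub_apply, LinearMap.id_apply, LinearMap.comp_apply,
        ContinuousLinearMap.coe_coe, map_sub, hs, sub_self]
  let eq : Cm n ≃ₗ[ℂ] (Cm q × LinearMap.ker (L : Cm n →ₗ[ℂ] Cm q)) :=
    LinearEquiv.ofLinearMap (LinearMap.prod (L : Cm n →ₗ[ℂ] Cm q) P)
      (LinearMap.coprod s (Submodule.subtype _)) (by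
        refine LinearMap.ext fun a => ?_
        obtain ⟨a, k, hk⟩ := a
        have hk' : L k = 0 := hk
        refine Prod.ext ?_ (Subtype.ext ?_)
        · simp [hs, hk']
        · simp [P, hs, hk']) (by
        refine LinearMap.ext fun a => ?_
        simp [P])
  let bs : Module.Basis (Fin q ⊕ Fin (Module.finrank ℂ (LinearMap.ker (L : Cm n →ₗ[ℂ] Cm q)))) ℂ
      (Cm n) := ((Pi.basisFun ℂ (Fin q)).prod (Module.finBasis ℂ _)).map eq.symm
  have hbl : ∀ j, bs (Sum.inl j) = u j := by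
    intro j
    simp [bs, eq, s]
  have hbr : ∀ c, L (bs (Sum.inr c)) = 0 := by
    intro c
    simp [bs, eq]
  refine bs.ext_alternating fun v hv => ?_
  by_cases h2 : ∃ i j, i ≠ j ∧ (∃ c, v i = Sum.inr c) ∧ ∃ c, v j = Sum.inr c
  · obtain ⟨i, j, hij, ⟨c, hc⟩, ⟨c', hc'⟩⟩ := h2
    rw [hA _ i j hij (by rw [hc]; exact hbr c) (by rw [hc']; exact hbr c'),
      hB _ i j hij (by rw [hc]; exact hbr c) (by rw [hc']; exact hbr c')]
  · push Not at h2
    let τ : Fin (q + 1) → Fin (q + 1) := fun i => Sum.elim Fin.castSucc (fun _ => Fin.last q) (v i)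
    have hτ : Function.Injective τ := by
      intro i j hij
      by_contra hne
      simp only [τ] at hij
      rcases hi : v i with a | c <;> rcases hj : v j with b | c' <;> rw [hi, hj] at hij
      · simp only [Sum.elim_inl] at hij
        have := Fin.castSucc_injective q hij
        subst this
        exact hne (hv (hi.trans hj.symm))
      · simp only [Sum.elim_inl, Sum.elim_inr] at hij
        exact (Fin.castSucc_lt_last a).ne hij
      · simp only [Sum.elim_inl, Sum.elim_inr] at hij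
        exact (Fin.castSucc_lt_last b).ne hij.symm
      · exact h2 i j hne ⟨c, hi⟩ c' hj
    have hτb : Function.Bijective τ := Finite.injective_iff_bijective.1 hτ
    obtain ⟨i₀, hi₀⟩ := hτb.2 (Fin.last q)
    have hv0 : ∃ c, v i₀ = Sum.inr c := by
      rcases hi : v i₀ with a | c
      · simp only [τ, hi, Sum.elim_inl] at hi₀
        exact absurd hi₀ (Fin.castSucc_lt_last a).ne
      · exact ⟨c, rfl⟩
    obtain ⟨c, hc⟩ := hv0
    have hcomp : (fun i => bs (v i)) = (Fin.snoc (α := fun _ => Cm n) u (bs (Sum.inr c))) ∘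
        (Equiv.ofBijective τ hτb) := by
      funext i
      rw [Function.comp_apply, Equiv.ofBijective_apply]
      rcases hi : v i with a | c'
      · have : τ i = a.castSucc := by simp only [τ, hi, Sum.elim_inl]
        rw [this, Fin.snoc_castSucc, hbl]
      · have h3 : τ i = Fin.last q := by simp only [τ, hi, Sum.elim_inr]
        have h4 : i = i₀ := hτ (h3.trans hi₀.symm)
        subst h4
        rw [h3, Fin.snoc_last, ← hi, hc]
    rw [hcomp, AlternatingMap.map_perm, AlternatingMap.map_perm, h _ (hbr c)]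

/-- **`S = O ∧ Θ`** -/
theorem exists_isW {L : Cm n →L[ℂ] Cm q} (hL : Function.Surjective L)
    {S : Cm n [⋀^Fin (q + 1)]→L[ℂ] W}
    (h : ∀ (ξ : Fin (q + 1) → Cm n) (i j : Fin (q + 1)), i ≠ j → L (ξ i) = 0 → L (ξ j) = 0 →
      S ξ = 0) : ∃ Θ : Cm n →L[ℂ] W, IsW L S Θ := by
  choose u hu using fun j : Fin q => hL (Pi.single j 1)
  let Θ : Cm n →L[ℂ] W := S.toContinuousMultilinearMap.toContinuousLinearMap
    (Fin.snoc (α := fun _ => Cm n) u 0) (Fin.last q)
  have hΘ : ∀ v, Θ v = S (Fin.snoc (α := fun _ => Cm n) u v) := by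
    intro v
    show S (Function.update (Fin.snoc (α := fun _ => Cm n) u 0) (Fin.last q) v) = _
    rw [Fin.update_snoc_last]
  refine ⟨Θ, ?_⟩
  have h1 : S.toAlternatingMap = gfA L (Θ : Cm n →ₗ[ℂ] W)
      ((tp1 W).μ.toMultilinearMap) := by
    refine alt_eq_of_vert hu h (fun ξ i j hij hi hj => ?_) fun v hv => ?_
    · rw [gfA_apply]
      exact gf_vert L _ _ hij hi hj
    · rw [gfA_apply]
      have h2 := gf_snoc (fun v => Θ v) hu hv
      rw [hΘ v] at h2
      exact h2.symm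
  intro ξ
  have h2 := congrArg (fun A : Cm n [⋀^Fin (q + 1)]→ₗ[ℂ] W => A ξ) h1
  simp only [gfA_apply] at h2
  exact h2

end

end Vale.Agent.P284.H338
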