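import Vale.Agent.P284.H338.EReg
import Vale.Agent.P284.H338.GfA

/-!
# P284 (helper338), module NS (e), part 2: equivariance of the forms `O ∧ μ(Θ, …, Θ)`
-/

open scoped Manifold ContDiff Topology
open Filter

noncomputable section

set_option linter.unusedSectionVars false

namespace Vale.Agent.P284.H338

open Vale.Agent.P272.K Vale.Agent.P284.H573 Vale.Agent.P284.H625 Vale.Agent.P284.H894.G
  Vale.Agent.P284.H501 Vale.Agent.P284.H894.W

/-- `O ∧ μ(Θ, …, Θ)` and isometries -/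
lemma gf_map {n q k : ℕ} {W W' T T' : Type*} [AddCommGroup T] [Module ℂ T] [AddCommGroup T']
    [Module ℂ T'] (L : Cm n →L[ℂ] Cm q) (Θ : Cm n → W) (μ : (Fin k → W) → T)
    (μ' : (Fin k → W') → T') (U : W → W') (U₁ : T →ₗ[ℂ] T')
    (h : ∀ a, U₁ (μ a) = μ' fun i => U (a i)) (ξ : Fin (q + k) → Cm n) :
    gf k L (fun v => U (Θ v)) μ' ξ = U₁ (gf k L Θ μ ξ) := by
  rw [gf, gf, map_smul, map_sum]
  congr 1
  refine Finset.sum_congr rfl fun σ _ => ?_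
  rw [map_smul, map_smul, h]

lemma isW_map {n q : ℕ} {W W' : Type*} [NormedAddCommGroup W] [NormedSpace ℂ W]
    [NormedAddCommGroup W'] [NormedSpace ℂ W'] {L : Cm n →L[ℂ] Cm q}
    {S : Cm n [⋀^Fin (q + 1)]→L[ℂ] W} {S' : Cm n [⋀^Fin (q + 1)]→L[ℂ] W'} {Θ : Cm n →L[ℂ] W}
    (h : IsW L S Θ) (U : W →L[ℂ] W') (hS : ∀ ξ, S' ξ = U (S ξ)) : IsW L S' (U.comp Θ) := by
  intro ξ
  rw [hS, h ξ]
  exact (gf_map L Θ (fun w => w 0) (fun w => w 0) U (U : W →ₗ[ℂ] W') (fun a => rfl) ξ).symm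

section
variable {n q : ℕ} {X E : Type} [TopologicalSpace X] [ChartedSpace (Cm n) X]
  [TopologicalSpace E] {p : E → X} [IsManifold 𝓘(ℂ, Cm n) ω X] {t : E → Cm q}
  {W : Type} [NormedAddCommGroup W] [InnerProductSpace ℂ W]
  {S : E → Chart n X → Cm n [⋀^Fin (q + 1)]→L[ℂ] W} {G : Type} [Group G] [MulAction G E]

/-- the relation `S = O ∧ Θ` at all regular points -/
def IsRel (p : E → X) (t : E → Cm q) (S : E → Chart n X → Cm n [⋀^Fin (q + 1)]→L[ℂ] W) : Prop :=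
  ∀ y e f, At e (p y) → H501.Rep p t y e f → Function.Surjective (fderiv ℂ f (e (p y))) →
    ∀ (ξ : Fin (q + 1) → Cm n) (i j : Fin (q + 1)), i ≠ j → fderiv ℂ f (e (p y)) (ξ i) = 0 →
    fderiv ℂ f (e (p y)) (ξ j) = 0 → S y e ξ = 0

/-- equivariance of `O ∧ μ(Θ, …, Θ)` -/
theorem isG_act (hp : IsLocalHomeomorph p)
    (hrep : ∀ y (e : Chart n X), At e (p y) → ∃ f, H501.Rep p t y e f)
    (hreg : ∀ y (e : Chart n X) f, At e (p y) → H501.Rep p t y e f →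
      ∃ᶠ z in 𝓝 (e (p y)), Function.Surjective (fderiv ℂ f z))
    (hrel : IsRel p t S) {k : ℕ} {T : Type} [NormedAddCommGroup T] [InnerProductSpace ℂ T]
    {μ : ContinuousMultilinearMap ℂ (fun _ : Fin k => W) T}
    {V : E → Chart n X → Cm n [⋀^Fin (q + k)]→L[ℂ] T} (hV : FormE p V) (hG : IsG p t S μ V)
    {g : G} (hg : Continuous fun y : E => g • y) (hpg : ∀ y, p (g • y) = p y) {c : Cm q}
    {U : W →ₗᵢ[ℂ] W} {U₁ : T →ₗᵢ[ℂ] T} (hU : ∀ a, U₁ (μ a) = μ fun i => U (a i))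
    (ht : ∀ y, t (g • y) = t y + c)
    (hS : ∀ y e, At e (p y) → ∀ ξ, S (g • y) e ξ = U (S y e ξ)) :
    ∀ y e, At e (p y) → ∀ ξ, V (g • y) e ξ = U₁ (V y e ξ) := by
  -- regular points
  have key : ∀ y, Reg (n := n) p t y → ∀ e, At e (p y) → ∀ ξ, V (g • y) e ξ = U₁ (V y e ξ) := by
    intro y hy e he ξ
    obtain ⟨f, hf⟩ := hrep y e he
    have hs := (reg_iff hp he hf).1 hy
    obtain ⟨Θ, hΘ⟩ := exists_isW hs (hrel y e f he hf hs)
    have he' : At e (p (g • y)) := by rw [hpg]; exact he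
    obtain ⟨f', hf'⟩ := hrep (g • y) e he'
    have h1 : f' =ᶠ[𝓝 (e (p y))] fun z => f z + c := by
      refine (ev_iff hp he).1 ?_
      filter_upwards [hf.2, (hg.tendsto y).eventually hf'.2] with y' a b
      rw [hpg] at b
      rw [← b, ht, a]
    have h2 : fderiv ℂ f' (e (p (g • y))) = fderiv ℂ f (e (p y)) := by
      rw [hpg, h1.fderiv_eq, fderiv_add_const]
    have h3 : IsW (fderiv ℂ f (e (p y))) (S (g • y) e) (U.toContinuousLinearMap.comp Θ) :=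
      isW_map hΘ U.toContinuousLinearMap (hS y e he)
    rw [hG (g • y) e f' he' hf' (by rw [h2]; exact hs) (U.toContinuousLinearMap.comp Θ)
      (by rw [h2]; exact h3) ξ, hG y e f he hf hs Θ hΘ ξ, h2]
    exact gf_map (fderiv ℂ f (e (p y))) (fun v => Θ v) (fun a => μ a) (fun a => μ a)
      (fun w => U w) (U₁ : T →ₗ[ℂ] T) hU ξ
  intro y e he ξ
  have he' : At e (p (g • y)) := by rw [hpg]; exact he
  obtain ⟨s, hs, hs'⟩ := hV.holo y e he
  obtain ⟨s', hs1, hs1'⟩ := hV.holo (g • y) e he'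
  have h1 : ∀ᶠ y' in 𝓝 y, V (g • y') e = s' (e (p y')) := by
    filter_upwards [(hg.tendsto y).eventually hs1'] with y' a
    rw [hpg] at a
    exact a
  rw [hpg] at hs1
  have hap : Continuous fun A : Cm n [⋀^Fin (q + k)]→L[ℂ] T => A ξ :=
    (ContinuousAlternatingMap.apply ℂ (Cm n) T ξ).continuous
  have hc1 : ContinuousAt (fun z => s' z ξ) (e (p y)) :=
    hap.continuousAt.comp (f := s') hs1.continuousAt
  have hc2 : ContinuousAt (fun z => U₁ (s z ξ)) (e (p y)) :=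
    (U₁.continuous.comp hap).continuousAt.comp (f := s) hs.continuousAt
  by_contra hne
  have h3 : s' (e (p y)) ξ - U₁ (s (e (p y)) ξ) ≠ 0 := by
    rw [← h1.self_of_nhds, ← hs'.self_of_nhds]
    exact sub_ne_zero.2 hne
  have h4 := (tend_ep hp he).eventually ((hc1.sub hc2).eventually_ne h3)
  have h5 := (reg_dense hp hrep hreg) y
  rw [mem_closure_iff_frequently] at h5
  obtain ⟨y', h6, h7, h8, h9, h10⟩ :=
    (h5.and_eventually (h4.and (h1.and (hs'.and (at_near hp he))))).exists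
  refine h7 (sub_eq_zero.2 ?_)
  show s' (e (p y')) ξ = U₁ (s (e (p y')) ξ)
  rw [← h8, ← h9]
  exact key y' h6 e h10 ξ

end

section
variable {n q r : ℕ} {X E : Type} [TopologicalSpace X] [ChartedSpace (Cm n) X]
  [TopologicalSpace E] {p : E → X} [IsManifold 𝓘(ℂ, Cm n) ω X] {t : E → Cm q}
  {W T₂ T₁ T₀ : Type} [NormedAddCommGroup W] [InnerProductSpace ℂ W]
  [NormedAddCommGroup T₂] [InnerProductSpace ℂ T₂]
  [NormedAddCommGroup T₁] [InnerProductSpace ℂ T₁] [CompleteSpace T₁]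
  [NormedAddCommGroup T₀] [InnerProductSpace ℂ T₀] [CompleteSpace T₀]
  {S : E → Chart n X → Cm n [⋀^Fin (q + 1)]→L[ℂ] W}
  {S₂ : TPow W T₂ (r + 2)} {S₁ : TPow W T₁ (r + 1)} {S₀ : TPow W T₀ r}
  {V : E → Chart n X → Cm n [⋀^Fin (q + (r + 1))]→L[ℂ] T₁}
  {V' : E → Chart n X → Cm n [⋀^Fin (q + r)]→L[ℂ] T₀} {G : Type} [Group G] [MulAction G E]

/-- equivariance of `V`, `V'` under one element -/
theorem SDat.act (hp : IsLocalHomeomorph p) (h : SDat p t S S₂ S₁ S₀ V V') {g : G}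
    (hg : Continuous fun y : E => g • y) (hpg : ∀ y, p (g • y) = p y) {c : Cm q}
    {U : W →ₗᵢ[ℂ] W} {U₁ : T₁ →ₗᵢ[ℂ] T₁} {U₂ : T₀ →ₗᵢ[ℂ] T₀}
    (hU₁ : ∀ a, U₁ (S₁.μ a) = S₁.μ fun i => U (a i))
    (hU₂ : ∀ a, U₂ (S₀.μ a) = S₀.μ fun i => U (a i))
    (ht : ∀ y, t (g • y) = t y + c)
    (hS : ∀ y e, At e (p y) → ∀ ξ, S (g • y) e ξ = U (S y e ξ)) (y : E) :
    t (g • y) = t y + c ∧ ∀ e : Chart n X, At e (p y) →
      (∀ ξ, V (g • y) e ξ = U₁ (V y e ξ)) ∧ ∀ ξ, V' (g • y) e ξ = U₂ (V' y e ξ) :=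
  ⟨ht y, fun e he =>
    ⟨isG_act hp h.rep h.reg h.rel h.formV h.isV hg hpg hU₁ ht hS y e he,
      isG_act hp h.rep h.reg h.rel h.formV' h.isV' hg hpg hU₂ ht hS y e he⟩⟩

/-- **the group acts on the data `t`, `V`, `V'`** -/
theorem SDat.eqAct (hp : IsLocalHomeomorph p) (h : SDat p t S S₂ S₁ S₀ V V')
    (hg : ∀ g : G, Continuous fun y : E => g • y) (hpg : ∀ (g : G) y, p (g • y) = p y)
    (hE : ∀ g : G, ∃ (U : W →ₗᵢ[ℂ] W) (c : Cm q), (∀ y, t (g • y) = t y + c) ∧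
      ∀ y e, At e (p y) → ∀ ξ, S (g • y) e ξ = U (S y e ξ)) :
    EqAct (k := q + r) G p t V V' := by
  intro g
  obtain ⟨U, c, ht, hS⟩ := hE g
  obtain ⟨U₁, hU₁⟩ := S₁.map U
  obtain ⟨U₂, hU₂⟩ := S₀.map U
  exact ⟨U₁, U₂, c, fun y => h.act hp (hg g) (hpg g) hU₁ hU₂ ht hS y⟩

/-- an element which does not change `S` does not change `V`, `V'` -/
theorem SDat.fix (hp : IsLocalHomeomorph p) (h : SDat p t S S₂ S₁ S₀ V V') {g : G}
    (hg : Continuous fun y : E => g • y) (hpg : ∀ y, p (g • y) = p y) {c : Cm q}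
    (ht : ∀ y, t (g • y) = t y + c)
    (hS : ∀ y e, At e (p y) → ∀ ξ, S (g • y) e ξ = S y e ξ) (y : E) :
    t (g • y) = t y + c ∧ ∀ e : Chart n X, At e (p y) →
      (∀ ξ, V (g • y) e ξ = V y e ξ) ∧ ∀ ξ, V' (g • y) e ξ = V' y e ξ :=
  h.act hp hg hpg (U := LinearIsometry.id) (U₁ := LinearIsometry.id) (U₂ := LinearIsometry.id)
    (fun _ => rfl) (fun _ => rfl) ht hS y

end

end Vale.Agent.P284.H338
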