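import Vale.Agent.P284.H338.EAct

/-!
# P284 (helper338), module NS (e), part 2: adapted charts
-/

open scoped Manifold ContDiff Topology
open Filter

noncomputable section

set_option linter.unusedSectionVars false

namespace Vale.Agent.P284.H338

open Vale.Agent.P272.K Vale.Agent.P284.H573 Vale.Agent.P284.H625 Vale.Agent.P284.H894.G
  Vale.Agent.P284.H501 Vale.Agent.P284.H894.W

section alg
variable {N : Type*} [NormedAddCommGroup N] [NormedSpace ℂ N]

/-- an alternating form of top degree on the columns of a matrix -/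
lemma alt_cols {R : ℕ} (f : (Cm R) [⋀^Fin R]→ₗ[ℂ] N) (c : Fin R → Cm R) :
    f c = (Matrix.of fun i j => c j i).det • f fun j => Pi.single j 1 := by
  have h1 := alt_mul f (Matrix.of c) fun j => (Pi.single j 1 : Cm R)
  have h2 : (fun i => ∑ j, (Matrix.of c) i j • (Pi.single j (1 : ℂ) : Cm R)) = c := by
    funext i
    ext m
    simp [Pi.single_apply]
  rw [h2] at h1
  rw [h1, ← Matrix.det_transpose]
  rfl

/-- the signed components of a form of codegree one on the columns of a matrix -/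
lemma alt_cols' {k : ℕ} (f : (Cm (k + 1)) [⋀^Fin k]→ₗ[ℂ] N) (c : Fin (k + 1) → Cm (k + 1))
    (i : Fin (k + 1)) :
    (-1 : ℂ) ^ (i : ℕ) • f (fun l => c (i.succAbove l)) =
      ∑ j, (Matrix.of fun i j => c j i).adjugate i j •
        ((-1 : ℂ) ^ (j : ℕ) • f (fun l => (Pi.single (j.succAbove l) 1 : Cm (k + 1)))) := by
  have h1 := adj_alt f (Matrix.of c) (fun j => (Pi.single j 1 : Cm (k + 1))) i
  have h2 : ∀ l, (∑ m, (Matrix.of c) (i.succAbove l) m • (Pi.single m (1 : ℂ) : Cm (k + 1))) =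
      c (i.succAbove l) := by
    intro l
    ext m
    simp [Pi.single_apply]
  simp only [h2] at h1
  exact h1

lemma gf_comp {n R q k : ℕ} {W T : Type*} [AddCommGroup T] [Module ℂ T]
    (L : Cm R →L[ℂ] Cm q) (Θ : Cm R → W) (μ : (Fin k → W) → T) (B : Cm n →L[ℂ] Cm R)
    (ξ : Fin (q + k) → Cm n) :
    gf k (L.comp B) (fun v => Θ (B v)) μ ξ = gf k L Θ μ fun c => B (ξ c) := rfl

end alg

section
variable {q R : ℕ} {W H₁ H₂ : Type} [NormedAddCommGroup W] [InnerProductSpace ℂ W]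
  [NormedAddCommGroup H₁] [InnerProductSpace ℂ H₁] [CompleteSpace H₁] [NormedAddCommGroup H₂]
  [InnerProductSpace ℂ H₂] [CompleteSpace H₂]

lemma datAn_near {D : Dat q R H₁ H₂} {x₀ : Cm R} (h : D.An x₀) : ∀ᶠ x in 𝓝 x₀, D.An x := by
  filter_upwards [h.1.eventually_analyticAt, h.2.1.eventually_analyticAt,
    h.2.2.eventually_analyticAt] with x h1 h2 h3
  exact ⟨h1, h2, h3⟩

lemma adC_near [CompleteSpace W] {r : ℕ} {D : Dat q (q + r) H₁ H₂} {F : Cm (q + r) → W}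
    {x₀ : Cm (q + r)} {ε : H₁} {e : Fin r → H₂} {del : Fin r → W → H₁}
    (h : AdC D F x₀ ε e del) : ∀ᶠ x in 𝓝 x₀, AdC D F x ε e del := by
  obtain ⟨c, hc⟩ := h.t_eq
  filter_upwards [datAn_near h.an, hc.eventually_nhds, h.F_an.eventually_analyticAt,
    h.one.eventually_nhds, h.vec.eventually_nhds, h.comp.eventually_nhds]
    with x h1 h2 h3 h4 h5 h6
  exact ⟨h1, ⟨c, h2⟩, h3, h4, h5, h6⟩

end

section
variable {n q r : ℕ} {X E : Type} [TopologicalSpace X] [ChartedSpace (Cm n) X]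
  [TopologicalSpace E] {p : E → X} {t : E → Cm q}
  {W T₂ T₁ T₀ : Type} [NormedAddCommGroup W] [InnerProductSpace ℂ W] [CompleteSpace W]
  [NormedAddCommGroup T₂] [InnerProductSpace ℂ T₂]
  [NormedAddCommGroup T₁] [InnerProductSpace ℂ T₁] [CompleteSpace T₁]
  [NormedAddCommGroup T₀] [InnerProductSpace ℂ T₀] [CompleteSpace T₀]
  {S : E → Chart n X → Cm n [⋀^Fin (q + 1)]→L[ℂ] W}
  {S₂ : TPow W T₂ (r + 2)} {S₁ : TPow W T₁ (r + 1)} {S₀ : TPow W T₀ r}
  {V : E → Chart n X → Cm n [⋀^Fin (q + (r + 1))]→L[ℂ] T₁}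
  {V' : E → Chart n X → Cm n [⋀^Fin (q + r)]→L[ℂ] T₀}

/-- adapted charts are adapted at the nearby points -/
theorem AdAt.near (hp : IsLocalHomeomorph p) {f : Fin (r + 1) → W} {y : E} {e : Chart n X}
    {b : Cm n → Cm (q + (r + 1))} {D : Dat q (q + (r + 1)) T₁ T₀} {F : Cm (q + (r + 1)) → W}
    (h : AdAt p t S S₁ S₀ V V' f y e b D F) :
    ∀ᶠ y' in 𝓝 y, AdAt p t S S₁ S₀ V V' f y' e b D F := by
  have hc : Tendsto (fun y' => b (e (p y'))) (𝓝 y) (𝓝 (b (e (p y)))) :=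
    h.basic.ban.continuousAt.tendsto.comp (tend_ep hp h.basic.mem)
  have h2 : ∀ᶠ z in 𝓝 (e (p y)), Function.Surjective (fderiv ℂ b z) :=
    h.basic.ban.fderiv.continuousAt.eventually_mem (surj_isOpen.mem_nhds h.surj)
  filter_upwards [h.basic.near hp, (tend_ep hp h.basic.mem).eventually h2,
    hc.eventually (adC_near h.adc), hc.eventually h.dual.eventually_nhds,
    h.rel.eventually_nhds, hc.eventually h.t0.eventually_nhds,
    hc.eventually h.v_eq.eventually_nhds, hc.eventually h.w_eq.eventually_nhds]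
    with y' h1 h2 h3 h4 h5 h6 h7 h8
  exact ⟨h1, h2, h3, h4, h5, h6, h7, h8⟩

variable [IsManifold 𝓘(ℂ, Cm n) ω X]

/-- the exterior model of `F` -/
def exD (q r : ℕ) {W T₁ T₀ : Type} [NormedAddCommGroup W] [InnerProductSpace ℂ W]
    [NormedAddCommGroup T₁] [InnerProductSpace ℂ T₁] [NormedAddCommGroup T₀]
    [InnerProductSpace ℂ T₀] (S₁ : TPow W T₁ (r + 1)) (S₀ : TPow W T₀ r)
    (F : Cm (q + (r + 1)) → W) : Dat q (q + (r + 1)) T₁ T₀ where
  t := tq
  v x := gf (r + 1) (tqL q (r + 1)) (fun v => fderiv ℂ F x v) S₁.μ fun c => Pi.single c 1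
  w x i := ((-1 : ℂ) ^ (i : ℕ)) • gf r (tqL q (r + 1)) (fun v => fderiv ℂ F x v) S₀.μ
    fun c : Fin (q + r) => (Pi.single ((i : Fin (q + r + 1)).succAbove c) 1 : Cm (q + r + 1))

lemma gf_an {R k : ℕ} {T : Type} [NormedAddCommGroup T] [InnerProductSpace ℂ T]
    (L : Cm R →L[ℂ] Cm q) (μ : ContinuousMultilinearMap ℂ (fun _ : Fin k => W) T)
    {F : Cm R → W} {x₀ : Cm R} (hF : AnalyticAt ℂ F x₀) (ξ : Fin (q + k) → Cm R) :
    AnalyticAt ℂ (fun x => gf k L (fun v => fderiv ℂ F x v) μ ξ) x₀ := by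
  simp only [gf]
  refine AnalyticAt.const_smul (Finset.analyticAt_fun_sum _ fun σ _ => AnalyticAt.const_smul
    (AnalyticAt.const_smul ?_))
  have h1 : AnalyticAt ℂ (fun x => fun a : Fin k => fderiv ℂ F x (ξ (σ (Fin.natAdd q a)))) x₀ := by
    rw [analyticAt_pi_iff]
    intro a
    exact ((ContinuousLinearMap.apply ℂ W (ξ (σ (Fin.natAdd q a)))).analyticAt _).comp hF.fderiv
  exact (μ.analyticAt (x := fun a : Fin k => fderiv ℂ F x₀ (ξ (σ (Fin.natAdd q a))))).comp h1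

lemma exD_an {S₁ : TPow W T₁ (r + 1)} {S₀ : TPow W T₀ r} {F : Cm (q + (r + 1)) → W}
    {x₀ : Cm (q + (r + 1))} (hF : AnalyticAt ℂ F x₀) : (exD q r S₁ S₀ F).An x₀ := by
  have h2 := gf_an (tqL q (r + 1)) S₁.μ hF fun c : Fin (q + (r + 1)) =>
    (Pi.single c 1 : Cm (q + (r + 1)))
  refine ⟨(tqL q (r + 1)).analyticAt x₀, h2, ?_⟩
  show AnalyticAt ℂ (fun x => (exD q r S₁ S₀ F).w x) x₀
  rw [analyticAt_pi_iff]
  intro i
  have h1 := gf_an (tqL q (r + 1)) S₀.μ hF fun c : Fin (q + r) =>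
    (Pi.single ((i : Fin (q + r + 1)).succAbove c) 1 : Cm (q + r + 1))
  exact h1.const_smul (c := (-1 : ℂ) ^ (i : ℕ))

/-- **existence of adapted charts** -/
theorem SDat.exists_adAt (hloc : LocFormStmt) (hp : IsLocalHomeomorph p)
    (h : SDat p t S S₂ S₁ S₀ V V') {y : E} (hreg : Reg (n := n) p t y) {e : Chart n X}
    (he : At e (p y)) (f : Fin (r + 1) → W) (hf : ∃ ξ, inner ℂ (S₁.μ f) (V y e ξ) ≠ 0) :
    ∃ (b : Cm n → Cm (q + (r + 1))) (F : Cm (q + (r + 1)) → W),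
      AdAt p t S S₁ S₀ V V' f y e b (exD q r S₁ S₀ F) F := by
  obtain ⟨tl, ht⟩ := h.rep y e he
  obtain ⟨s, hs, hs'⟩ := h.form.holo y e he
  have hsu := (reg_iff hp he ht).1 hreg
  have hA := at_near hp he
  have hR := rep_near hp he ht
  have hev : ∀ᶠ y' in 𝓝 y, At e (p y') ∧ H501.Rep p t y' e tl ∧ S y' e = s (e (p y')) ∧
      Function.Surjective (fderiv ℂ tl (e (p y'))) := by
    have h2 : ∀ᶠ z in 𝓝 (e (p y)), Function.Surjective (fderiv ℂ tl z) :=
      ht.1.fderiv.continuousAt.eventually_mem (surj_isOpen.mem_nhds hsu)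
    filter_upwards [hA, hR, hs', (tend_ep hp he).eventually h2] with y' a b c d
    exact ⟨a, b, c, d⟩
  have hrel : ∀ᶠ z in 𝓝 (e (p y)), ∀ (ξ : Fin (q + 1) → Cm n) (i j : Fin (q + 1)), i ≠ j →
      fderiv ℂ tl z (ξ i) = 0 → fderiv ℂ tl z (ξ j) = 0 → s z ξ = 0 := by
    refine (ev_iff hp he).1 ?_
    filter_upwards [hev] with y' ⟨h1, h2, h3, h4⟩ ξ i j hij hi hj
    rw [← h3]
    exact h.rel y' e tl h1 h2 h4 ξ i j hij hi hj
  have hmax : ∀ᶠ z in 𝓝 (e (p y)), ∀ Θ : Cm n →L[ℂ] W, IsW (fderiv ℂ tl z) (s z) Θ →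
      ∀ ξ, gf (r + 2) (fderiv ℂ tl z) Θ S₂.μ ξ = 0 := by
    refine (ev_iff hp he).1 ?_
    filter_upwards [hev] with y' ⟨h1, h2, h3, h4⟩ Θ hΘ ξ
    rw [← h3] at hΘ
    exact h.max y' e tl h1 h2 h4 Θ hΘ ξ
  have hne : ∀ Θ : Cm n →L[ℂ] W, IsW (fderiv ℂ tl (e (p y))) (s (e (p y))) Θ →
      ∃ ξ, (gfM (fderiv ℂ tl (e (p y))) Θ f ξ).det ≠ 0 := by
    intro Θ hΘ
    rw [← hs'.self_of_nhds] at hΘ
    obtain ⟨ξ, hξ⟩ := hf
    refine ⟨ξ, ?_⟩
    rw [← inner_gf S₁, ← h.isV y e tl he ht hsu Θ hΘ ξ]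
    exact hξ
  obtain ⟨b, F, hb, hbs, hF, htb, hW, hd⟩ := hloc n q r W T₂ S₂ tl s (e (p y)) ht.1 hs
    (h.closed y e s he hs hs') hrel hsu hmax f hne
  have hbt : Tendsto b (𝓝 (e (p y))) (𝓝 (b (e (p y)))) := hb.continuousAt
  -- differentials near the point
  have hD : ∀ᶠ z in 𝓝 (e (p y)), fderiv ℂ tl z = (tqL q (r + 1)).comp (fderiv ℂ b z) ∧
      fderiv ℂ (fun z => F (b z)) z = (fderiv ℂ F (b z)).comp (fderiv ℂ b z) := by
    filter_upwards [htb.eventually_nhds, hb.eventually_analyticAt,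
      hbt.eventually hF.eventually_analyticAt] with z h1 h2 h3
    refine ⟨?_, fderiv_fun_comp (g := F) z h3.differentiableAt h2.differentiableAt⟩
    have h4 : tl =ᶠ[𝓝 z] fun z => tqL q (r + 1) (b z) := h1
    rw [h4.fderiv_eq]
    exact (((tqL q (r + 1)).hasFDerivAt).comp z h2.differentiableAt.hasFDerivAt).fderiv
  have hgf : ∀ {k : ℕ} {T : Type} [NormedAddCommGroup T] [InnerProductSpace ℂ T]
      (μ : ContinuousMultilinearMap ℂ (fun _ : Fin k => W) T)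
      {G : E → Chart n X → Cm n [⋀^Fin (q + k)]→L[ℂ] T}, IsG p t S μ G →
      ∀ᶠ y' in 𝓝 y, ∀ ξ, G y' e ξ = gf k (tqL q (r + 1)) (fun v => fderiv ℂ F (b (e (p y'))) v) μ
        fun c => fderiv ℂ b (e (p y')) (ξ c) := by
    intro k T _ _ μ G hG
    filter_upwards [hev, (tend_ep hp he).eventually hW, (tend_ep hp he).eventually hD]
      with y' ⟨h1, h2, h3, h4⟩ h5 ⟨h6, h7⟩ ξ
    rw [← h3] at h5
    rw [hG y' e tl h1 h2 h4 _ h5 ξ, h7, h6]
    rfl
  refine ⟨b, F, ⟨he, hb, exD_an hF, ?_, ?_, ?_⟩, hbs, ?_, hd, ?_,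
    Eventually.of_forall fun _ => rfl, Eventually.of_forall fun _ => rfl,
    Eventually.of_forall fun _ _ => rfl⟩
  · filter_upwards [ht.2, (tend_ep hp he).eventually htb] with y' h1 h2
    rw [h1, h2]
    rfl
  · filter_upwards [hgf S₁.μ h.isV] with y' h1 ξ
    rw [h1]
    have h2 := alt_cols (gfA (tqL q (r + 1)) (fderiv ℂ F (b (e (p y'))) : _ →ₗ[ℂ] W)
      S₁.μ.toMultilinearMap) fun c => fderiv ℂ b (e (p y')) (ξ c)
    simp only [gfA_apply] at h2
    exact h2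
  · filter_upwards [hgf S₀.μ h.isV'] with y' h1 ξ i
    rw [h1]
    have h2 := alt_cols' (k := q + r) (gfA (tqL q (r + 1))
      (fderiv ℂ F (b (e (p y'))) : _ →ₗ[ℂ] W) S₀.μ.toMultilinearMap)
      (fun c => fderiv ℂ b (e (p y')) (ξ c)) i
    simp only [gfA_apply] at h2
    exact h2
  · refine adC_of S₁ S₀ (exD_an hF) ⟨0, Eventually.of_forall fun x => (add_zero _).symm⟩ hF f ?_
      (Eventually.of_forall fun _ => rfl) (Eventually.of_forall fun _ _ => rfl)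
    filter_upwards [hd.eventually_nhds, hF.eventually_analyticAt] with x h1 h2 a c
    have h3 : (fun x => inner ℂ (f a) (F x)) =ᶠ[𝓝 x] fun x => x (Fin.natAdd q a) := by
      filter_upwards [h1] with x' hx'
      exact hx' a
    have h4 : fderiv ℂ (fun x => inner ℂ (f a) (F x)) x (Pi.single c 1) =
        inner ℂ (f a) (fderiv ℂ F x (Pi.single c 1)) := by
      have := ((innerSL ℂ (f a)).hasFDerivAt.comp x h2.differentiableAt.hasFDerivAt).fderiv
      have h5 : fderiv ℂ (fun x => inner ℂ (f a) (F x)) x =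
          (innerSL ℂ (f a)).comp (fderiv ℂ F x) := this
      rw [h5]
      rfl
    rw [← h4, h3.fderiv_eq]
    have h5 : fderiv ℂ (fun x : Cm (q + (r + 1)) => x (Fin.natAdd q a)) x =
        ContinuousLinearMap.proj (R := ℂ) (φ := fun _ : Fin (q + (r + 1)) => ℂ) (Fin.natAdd q a) :=
      (ContinuousLinearMap.proj (R := ℂ) (φ := fun _ : Fin (q + (r + 1)) => ℂ)
        (Fin.natAdd q a)).hasFDerivAt.fderiv
    rw [h5]
    simp [Pi.single_apply]
  · filter_upwards [hev, (tend_ep hp he).eventually hW,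
      (tend_ep hp he).eventually htb.eventually_nhds] with y' ⟨h1, h2, h3, h4⟩ h5 h6
    rw [← h3] at h5
    have h7 : tl =ᶠ[𝓝 (e (p y'))] fun z => tq (b z) := h6
    rwa [h7.fderiv_eq] at h5

end

end Vale.Agent.P284.H338
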