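import Mathlib.LinearAlgebra.Determinant
import Mathlib.LinearAlgebra.Dual.Lemmas
import Mathlib.Analysis.Complex.Basic
import Mathlib.LinearAlgebra.Alternating.Uncurry.Fin
import Mathlib.LinearAlgebra.Matrix.Charpoly.Coeff
import Mathlib.LinearAlgebra.Matrix.Adjugate
import Mathlib.Topology.Instances.Matrix
import Mathlib.Analysis.Normed.Module.Alternating.Basic

/-!
# P284 (helper338): alternating forms and matrices
-/

open scoped Topology
open Filter

noncomputable section

namespace Vale.Agent.P284.H338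

variable {V N : Type*} [AddCommGroup V] [Module ℂ V]

/-- an alternating form on the rows of the matrix `A * ξ` -/
lemma alt_mul {N : Type*} [AddCommGroup N] [Module ℂ N] {R : ℕ} (f : V [⋀^Fin R]→ₗ[ℂ] N)
    (A : Matrix (Fin R) (Fin R) ℂ) (ξ : Fin R → V) :
    f (fun i => ∑ j, A i j • ξ j) = A.det • f ξ := by
  have h0 : ∀ φ : Module.Dual ℂ N, φ (f (fun i => ∑ j, A i j • ξ j)) = φ (A.det • f ξ) := by
    intro φ
    let L : (Fin R → ℂ) →ₗ[ℂ] V := Fintype.linearCombination ℂ ξ
    let F : (Fin R → ℂ) [⋀^Fin R]→ₗ[ℂ] ℂ := (φ.compAlternatingMap f).compLinearMap L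
    have h1 := F.eq_smul_basis_det (Pi.basisFun ℂ (Fin R))
    have h2 : F (fun i => A i) = F (Pi.basisFun ℂ (Fin R)) * A.det := by
      conv_lhs => rw [h1]
      rw [AlternatingMap.smul_apply, Pi.basisFun_det]
      rfl
    have h3 : F (fun i => A i) = φ (f (fun i => ∑ j, A i j • ξ j)) := by
      simp only [F, L, AlternatingMap.compLinearMap_apply, LinearMap.compAlternatingMap_apply]
      rfl
    have h4 : F (Pi.basisFun ℂ (Fin R)) = φ (f ξ) := by
      simp only [F, L, AlternatingMap.compLinearMap_apply, LinearMap.compAlternatingMap_apply]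
      congr 2
      funext i
      simp [Fintype.linearCombination_apply, Pi.single_apply]
    rw [← h3, h2, h4, map_smul, smul_eq_mul, mul_comm]
  rw [← sub_eq_zero]
  refine (Module.forall_dual_apply_eq_zero_iff ℂ _).1 fun φ => ?_
  rw [map_sub, h0 φ, sub_self]

/-- for small nonzero `s` the matrix `s + A` is invertible -/
lemma det_ne_near {R : ℕ} (A : Matrix (Fin R) (Fin R) ℂ) :
    ∀ᶠ s : ℂ in 𝓝[≠] 0, (s • (1 : Matrix (Fin R) (Fin R) ℂ) + A).det ≠ 0 := by
  have h1 : (Matrix.charpoly (-A)) ≠ 0 := (Matrix.charpoly_monic (-A)).ne_zero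
  have h2 : {s : ℂ | (Matrix.charpoly (-A)).IsRoot s}.Finite := by
    refine ((Matrix.charpoly (-A)).roots.toFinset.finite_toSet).subset fun s hs => ?_
    simpa [h1] using hs
  have h3 : ∀ᶠ s : ℂ in 𝓝[≠] 0, s ∉ {s : ℂ | (Matrix.charpoly (-A)).IsRoot s} := by
    have h4 : ({s : ℂ | (Matrix.charpoly (-A)).IsRoot s} \ {0}).Finite := h2.subset Set.sdiff_subset
    have h5 : ({s : ℂ | (Matrix.charpoly (-A)).IsRoot s} \ {0})ᶜ ∈ 𝓝 (0 : ℂ) :=
      h4.isClosed.isOpen_compl.mem_nhds (by simp)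
    filter_upwards [mem_nhdsWithin_of_mem_nhds h5, self_mem_nhdsWithin] with s hs hs0 hs1
    exact hs ⟨hs1, hs0⟩
  filter_upwards [h3] with s hs h0
  apply hs
  show (Matrix.charpoly (-A)).eval s = 0
  rw [Matrix.eval_charpoly]
  rw [← h0]
  congr 1
  ext i j
  by_cases hij : i = j
  · subst hij; simp
  · simp [hij]

variable [NormedAddCommGroup N] [NormedSpace ℂ N]

/-- the signed components of a form of codegree one on the rows of a matrix: matrix identity -/
lemma adj_alt_mul {k : ℕ} (f : V [⋀^Fin k]→ₗ[ℂ] N) (A : Matrix (Fin (k + 1)) (Fin (k + 1)) ℂ)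
    (ξ : Fin (k + 1) → V) (j : Fin (k + 1)) :
    ∑ i, A i j • ((-1 : ℂ) ^ (i : ℕ) • f (fun l => ∑ m, A (i.succAbove l) m • ξ m)) =
      A.det • ((-1 : ℂ) ^ (j : ℕ) • f (fun l => ξ (j.succAbove l))) := by
  let L : (Fin (k + 1) → ℂ) →ₗ[ℂ] V := Fintype.linearCombination ℂ ξ
  let ω : (Fin (k + 1) → ℂ) [⋀^Fin k]→ₗ[ℂ] N := f.compLinearMap L
  let β : (Fin (k + 1) → ℂ) [⋀^Fin (k + 1)]→ₗ[ℂ] N :=
    AlternatingMap.alternatizeUncurryFin ((LinearMap.proj j : (Fin (k + 1) → ℂ) →ₗ[ℂ] ℂ).smulRight ω)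
  have hβ : ∀ u : Fin (k + 1) → (Fin (k + 1) → ℂ), β u = ∑ i : Fin (k + 1), (-1 : ℂ) ^ (i : ℕ) •
      (u i j • ω (fun l => u (i.succAbove l))) := by
    intro u
    simp only [β, AlternatingMap.alternatizeUncurryFin_apply, LinearMap.smulRight_apply,
      LinearMap.proj_apply, AlternatingMap.smul_apply]
    refine Finset.sum_congr rfl fun i _ => ?_
    rw [← Int.cast_smul_eq_zsmul ℂ]
    push_cast
    rfl
  have h1 := alt_mul β A (fun i => Pi.single i (1 : ℂ))
  have e1 : (fun i => ∑ m, A i m • (Pi.single m (1 : ℂ) : Fin (k + 1) → ℂ)) = fun i => A i := by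
    funext i
    ext m
    simp [Pi.single_apply]
  rw [e1, hβ, hβ] at h1
  have hL : ∀ c : Fin (k + 1) → ℂ, L c = ∑ m, c m • ξ m := fun c => by
    simp [L, Fintype.linearCombination_apply]
  have hLs : ∀ m, L (Pi.single m 1) = ξ m := fun m => by
    rw [hL]; simp [Pi.single_apply]
  have e3 : ∑ i : Fin (k + 1), (-1 : ℂ) ^ (i : ℕ) • ((Pi.single i (1 : ℂ) : Fin (k + 1) → ℂ) j •
      ω (fun l => Pi.single (i.succAbove l) (1 : ℂ))) =
      (-1 : ℂ) ^ (j : ℕ) • ω (fun l => Pi.single (j.succAbove l) (1 : ℂ)) := by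
    rw [Finset.sum_eq_single j]
    · simp
    · intro i _ hij
      simp [Ne.symm hij]
    · simp
  rw [e3] at h1
  have e2 : ω (fun l => Pi.single (j.succAbove l) (1 : ℂ)) = f (fun l => ξ (j.succAbove l)) := by
    simp only [ω, AlternatingMap.compLinearMap_apply]
    congr 1
    funext l
    exact hLs _
  rw [e2] at h1
  rw [← h1]
  refine Finset.sum_congr rfl fun i _ => ?_
  rw [smul_comm]
  congr 2

/-- the signed components of a form of codegree one transform with the adjugate matrix -/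
lemma adj_alt {k : ℕ} (f : V [⋀^Fin k]→ₗ[ℂ] N) (A : Matrix (Fin (k + 1)) (Fin (k + 1)) ℂ)
    (ξ : Fin (k + 1) → V) (i : Fin (k + 1)) :
    (-1 : ℂ) ^ (i : ℕ) • f (fun l => ∑ m, A (i.succAbove l) m • ξ m) =
      ∑ j, A.transpose.adjugate i j • ((-1 : ℂ) ^ (j : ℕ) • f (fun l => ξ (j.succAbove l))) := by
  -- first for invertible matrices
  have key : ∀ B : Matrix (Fin (k + 1)) (Fin (k + 1)) ℂ, B.det ≠ 0 →
      (-1 : ℂ) ^ (i : ℕ) • f (fun l => ∑ m, B (i.succAbove l) m • ξ m) =
      ∑ j, B.transpose.adjugate i j • ((-1 : ℂ) ^ (j : ℕ) • f (fun l => ξ (j.succAbove l))) := by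
    intro B hB
    have h1 : ∀ j, ∑ i', B i' j • ((-1 : ℂ) ^ (i' : ℕ) •
        f (fun l => ∑ m, B (i'.succAbove l) m • ξ m)) =
        B.det • ((-1 : ℂ) ^ (j : ℕ) • f (fun l => ξ (j.succAbove l))) := adj_alt_mul f B ξ
    have h2 : B.det • ∑ j, B.transpose.adjugate i j • ((-1 : ℂ) ^ (j : ℕ) •
        f (fun l => ξ (j.succAbove l))) = B.det • ((-1 : ℂ) ^ (i : ℕ) •
        f (fun l => ∑ m, B (i.succAbove l) m • ξ m)) := by
      rw [Finset.smul_sum]
      calc ∑ j, B.det • B.transpose.adjugate i j • ((-1 : ℂ) ^ (j : ℕ) •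
            f (fun l => ξ (j.succAbove l)))
          = ∑ j, B.transpose.adjugate i j • ∑ i', B i' j • ((-1 : ℂ) ^ (i' : ℕ) •
              f (fun l => ∑ m, B (i'.succAbove l) m • ξ m)) := by
            refine Finset.sum_congr rfl fun j _ => ?_
            rw [h1 j, smul_comm]
        _ = ∑ i', (∑ j, B.transpose.adjugate i j * B.transpose j i') • ((-1 : ℂ) ^ (i' : ℕ) •
              f (fun l => ∑ m, B (i'.succAbove l) m • ξ m)) := by
            simp only [Finset.smul_sum, Finset.sum_smul]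
            rw [Finset.sum_comm]
            refine Finset.sum_congr rfl fun i' _ => Finset.sum_congr rfl fun j _ => ?_
            rw [smul_smul]
            rfl
        _ = B.det • ((-1 : ℂ) ^ (i : ℕ) •
            f (fun l => ∑ m, B (i.succAbove l) m • ξ m)) := by
            have h3 : ∀ i', (∑ j, B.transpose.adjugate i j * B.transpose j i') =
                if i = i' then B.det else 0 := by
              intro i'
              rw [← Matrix.mul_apply, Matrix.adjugate_mul, Matrix.det_transpose]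
              simp [Matrix.one_apply]
            simp only [h3, ite_smul, zero_smul]
            rw [Finset.sum_ite_eq]
            simp
    exact (smul_right_injective N hB h2).symm
  -- the general case by continuity
  let g : ℂ → N := fun s => (-1 : ℂ) ^ (i : ℕ) •
    f (fun l => ∑ m, (s • (1 : Matrix (Fin (k + 1)) (Fin (k + 1)) ℂ) + A) (i.succAbove l) m • ξ m) -
      ∑ j, (s • (1 : Matrix (Fin (k + 1)) (Fin (k + 1)) ℂ) + A).transpose.adjugate i j •
        ((-1 : ℂ) ^ (j : ℕ) • f (fun l => ξ (j.succAbove l)))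
  have hg0 : ∀ᶠ s : ℂ in 𝓝[≠] 0, g s = 0 := by
    filter_upwards [det_ne_near A] with s hs
    exact sub_eq_zero.2 (key _ hs)
  have hMc : Continuous fun s : ℂ => (s • (1 : Matrix (Fin (k + 1)) (Fin (k + 1)) ℂ) + A) := by
    fun_prop
  have hgc : Continuous g := by
    refine Continuous.sub ?_ ?_
    · refine Continuous.const_smul ?_ _
      have h1 : ∀ s : ℂ, f (fun l => ∑ m,
          (s • (1 : Matrix (Fin (k + 1)) (Fin (k + 1)) ℂ) + A) (i.succAbove l) m • ξ m) =
          ∑ c : Fin k → Fin (k + 1), (∏ l,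
            (s • (1 : Matrix (Fin (k + 1)) (Fin (k + 1)) ℂ) + A) (i.succAbove l) (c l)) •
            f (fun l => ξ (c l)) := by
        intro s
        have h2 := (f : MultilinearMap ℂ (fun _ : Fin k => V) N).map_sum
          (fun l m => (s • (1 : Matrix (Fin (k + 1)) (Fin (k + 1)) ℂ) + A) (i.succAbove l) m • ξ m)
        refine h2.trans (Finset.sum_congr rfl fun c _ => ?_)
        exact (f : MultilinearMap ℂ (fun _ : Fin k => V) N).map_smul_univ
          (fun l => (s • (1 : Matrix (Fin (k + 1)) (Fin (k + 1)) ℂ) + A) (i.succAbove l) (c l))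
          (fun l => ξ (c l))
      simp only [h1]
      refine continuous_finsetSum _ fun c _ => Continuous.smul ?_ continuous_const
      refine continuous_finsetProd _ fun l _ => ?_
      exact (continuous_apply (c l)).comp ((continuous_apply (i.succAbove l)).comp hMc)
    · refine continuous_finsetSum _ fun j _ => Continuous.smul ?_ continuous_const
      exact (hMc.matrix_transpose.matrix_adjugate).matrix_elem i j
  have h5 : Tendsto g (𝓝[≠] 0) (𝓝 (g 0)) := hgc.continuousAt.tendsto.mono_left nhdsWithin_le_nhds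
  have h6 : Tendsto g (𝓝[≠] 0) (𝓝 0) := by
    refine (tendsto_congr' hg0).2 tendsto_const_nhds
  have h7 : g 0 = 0 := tendsto_nhds_unique h5 h6
  have h8 := sub_eq_zero.1 h7
  simpa using h8

end Vale.Agent.P284.H338
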