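import Vale.Agent.P284.H338.EAd

/-!
# P284 (helper338), module NS (e), part 2: `SDat` gives `EDat`; choice of the rank
-/

open scoped Manifold ContDiff Topology
open Filter

noncomputable section

set_option linter.unusedSectionVars false

namespace Vale.Agent.P284.H338

open Vale.Agent.P272.K Vale.Agent.P284.H573 Vale.Agent.P284.H625 Vale.Agent.P284.H894.G
  Vale.Agent.P284.H501 Vale.Agent.P284.H894.W

lemma gf_mem_span {n q k : ℕ} {W T : Type*} [AddCommGroup T] [Module ℂ T]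
    (L : Cm n →L[ℂ] Cm q) (Θ : Cm n → W) (μ : (Fin k → W) → T) (ξ : Fin (q + k) → Cm n) :
    gf k L Θ μ ξ ∈ Submodule.span ℂ (Set.range μ) := by
  rw [gf]
  refine Submodule.smul_mem _ _ (Submodule.sum_mem _ fun σ _ => Submodule.smul_mem _ _
    (Submodule.smul_mem _ _ (Submodule.subset_span ⟨_, rfl⟩)))

lemma exists_inner_ne {T ι : Type*} [NormedAddCommGroup T] [InnerProductSpace ℂ T] {μ : ι → T}
    {x : T} (hx : x ∈ Submodule.span ℂ (Set.range μ)) (h : x ≠ 0) : ∃ f, inner ℂ (μ f) x ≠ 0 := by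
  by_contra hcon
  push Not at hcon
  have h1 : ∀ z ∈ Submodule.span ℂ (Set.range μ), inner ℂ z x = 0 := by
    intro z hz
    induction hz using Submodule.span_induction with
    | mem z hz => obtain ⟨f, rfl⟩ := hz; exact hcon f
    | zero => exact inner_zero_left _
    | add a b _ _ ha hb => rw [inner_add_left, ha, hb, add_zero]
    | smul c a _ ha => rw [inner_smul_left, ha, mul_zero]
  exact h (inner_self_eq_zero.1 (h1 x hx))

section
variable {n q r : ℕ} {X E : Type} [TopologicalSpace X] [ChartedSpace (Cm n) X]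
  [TopologicalSpace E] {p : E → X} [IsManifold 𝓘(ℂ, Cm n) ω X] {t : E → Cm q}
  {W T₂ T₁ T₀ : Type} [NormedAddCommGroup W] [InnerProductSpace ℂ W] [CompleteSpace W]
  [NormedAddCommGroup T₂] [InnerProductSpace ℂ T₂]
  [NormedAddCommGroup T₁] [InnerProductSpace ℂ T₁] [CompleteSpace T₁]
  [NormedAddCommGroup T₀] [InnerProductSpace ℂ T₀] [CompleteSpace T₀]
  {S : E → Chart n X → Cm n [⋀^Fin (q + 1)]→L[ℂ] W}
  {S₂ : TPow W T₂ (r + 2)} {S₁ : TPow W T₁ (r + 1)} {S₀ : TPow W T₀ r}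
  {V : E → Chart n X → Cm n [⋀^Fin (q + (r + 1))]→L[ℂ] T₁}
  {V' : E → Chart n X → Cm n [⋀^Fin (q + r)]→L[ℂ] T₀}

/-- a scalar component of `V` which does not vanish -/
theorem SDat.exists_f (hp : IsLocalHomeomorph p) (h : SDat p t S S₂ S₁ S₀ V V') {y : E}
    (hreg : Reg (n := n) p t y) {e : Chart n X} (he : At e (p y))
    {ξ : Fin (q + (r + 1)) → Cm n} (hξ : V y e ξ ≠ 0) :
    ∃ f : Fin (r + 1) → W, inner ℂ (S₁.μ f) (V y e ξ) ≠ 0 := by
  obtain ⟨tl, ht⟩ := h.rep y e he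
  have hs := (reg_iff hp he ht).1 hreg
  obtain ⟨Θ, hΘ⟩ := exists_isW hs (h.rel y e tl he ht hs)
  refine exists_inner_ne (μ := fun f => S₁.μ f) ?_ hξ
  rw [h.isV y e tl he ht hs Θ hΘ ξ]
  exact gf_mem_span _ _ _ _

/-- the good points: `dt` is onto and `V ≠ 0` -/
def GdE (n : ℕ) {X E : Type} [TopologicalSpace X] [ChartedSpace (Cm n) X] [TopologicalSpace E]
    (p : E → X) {q k : ℕ} (t : E → Cm q) {T : Type} [NormedAddCommGroup T] [NormedSpace ℂ T]
    (V : E → Chart n X → Cm n [⋀^Fin k]→L[ℂ] T) : Set E :=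
  {y | Reg (n := n) p t y ∧ ∃ e, At e (p y) ∧ ∃ ξ, V y e ξ ≠ 0}

theorem SDat.gdE_isOpen (hp : IsLocalHomeomorph p) (h : SDat p t S S₂ S₁ S₀ V V') :
    IsOpen (GdE n p t V) := by
  refine isOpen_iff_mem_nhds.2 fun y hy => ?_
  obtain ⟨hy1, e, he, ξ, hξ⟩ := hy
  filter_upwards [reg_near hp h.rep hy1, form_ne_near hp h.formV he hξ, at_near hp he]
    with y' h1 h2 h3
  exact ⟨h1, e, h3, ξ, h2⟩

theorem SDat.gdE_dense [PreconnectedSpace E] (hp : IsLocalHomeomorph p)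
    (h : SDat p t S S₂ S₁ S₀ V V') : Dense (GdE n p t V) := by
  have h1 := form_ne_dense hp h.formV h.ne
  have h2 := reg_dense hp h.rep h.reg
  have h3 : GdE n p t V = {y | Reg (n := n) p t y} ∩
      {y | ∃ e, At e (p y) ∧ ∃ ξ, V y e ξ ≠ 0} := rfl
  rw [h3]
  exact h2.inter_of_isOpen_left h1 (reg_isOpen hp h.rep)

/-- adapted charts exist at the good points -/
theorem SDat.exists_adAt_of_gdE (hloc : LocFormStmt) (hp : IsLocalHomeomorph p)
    (h : SDat p t S S₂ S₁ S₀ V V') {y : E} (hy : y ∈ GdE n p t V) :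
    ∃ (f : Fin (r + 1) → W) (e : Chart n X) (b : Cm n → Cm (q + (r + 1)))
      (F : Cm (q + (r + 1)) → W), AdAt p t S S₁ S₀ V V' f y e b (exD q r S₁ S₀ F) F := by
  obtain ⟨hy1, e, he, ξ, hξ⟩ := hy
  obtain ⟨f, hf⟩ := h.exists_f hp hy1 he hξ
  obtain ⟨b, F, hb⟩ := h.exists_adAt hloc hp hy1 he f ⟨ξ, hf⟩
  exact ⟨f, e, b, F, hb⟩

/-- **`SDat` gives `EDat`** -/
theorem SDat.edat [PreconnectedSpace E] (hloc : LocFormStmt) (hp : IsLocalHomeomorph p)
    (h : SDat p t S S₂ S₁ S₀ V V') : EDat (k := q + r) p t V V' := by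
  refine ⟨fun y e he => ?_, isForm_of h.formV, isForm_of h.formV', ?_⟩
  · obtain ⟨f, hf⟩ := h.rep y e he
    exact ⟨f, rep_of hf⟩
  · refine (h.gdE_dense hp).mono fun y hy => ?_
    obtain ⟨f, e, b, F, hb⟩ := h.exists_adAt_of_gdE hloc hp hy
    exact ⟨e, b, _, hb.basic⟩

end

end Vale.Agent.P284.H338
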