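import Vale.Agent.P284.H338.ENat
import Vale.Agent.P284.H573.HCalc
import Vale.Agent.P284.H573.HNF

/-!
# P284 (helper338), module NS (e): `natv Γ` is an `HForm`
-/

open scoped Manifold ContDiff Topology
open Filter

noncomputable section

namespace Vale.Agent.P284.H338

open Vale.Agent.P272.K Vale.Agent.P284.H812 Vale.Agent.P284.H573 Vale.Agent.P284.H625
  Vale.Agent.P284.H894.G

variable {n q k m : ℕ} {X E : Type} [TopologicalSpace X] [ChartedSpace (Cm n) X]
  [TopologicalSpace E] {p : E → X}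
  {H₁ H₂ H : Type} [NormedAddCommGroup H₁] [InnerProductSpace ℂ H₁]
  [NormedAddCommGroup H₂] [InnerProductSpace ℂ H₂] [NormedAddCommGroup H] [InnerProductSpace ℂ H]
  {t : E → Cm q} {V : E → Chart n X → Cm n [⋀^Fin (k + 1)]→L[ℂ] H₁}
  {W : E → Chart n X → Cm n [⋀^Fin k]→L[ℂ] H₂}

section chart
variable [IsManifold 𝓘(ℂ, Cm n) ω X]

lemma tr_an {x : X} {e e' : Chart n X} (he : At e x) (he' : At e' x) :
    AnalyticAt ℂ (fun z => e' (e.symm z)) (e x) := (transition he he').analyticAt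

/-- a basic point is basic in every chart -/
lemma BasicAt.chart (hp : IsLocalHomeomorph p) (hV : IsForm p V) (hW : IsForm p W) {y : E}
    {e₀ : Chart n X} {b : Cm n → Cm (k + 1)} {D : Dat q (k + 1) H₁ H₂}
    (hb : BasicAt p t V W y e₀ b D) {e : Chart n X} (he : At e (p y)) :
    BasicAt p t V W y e (fun z => b (e₀ (e.symm z))) D := by
  have h0 := hb.mem
  have e1 : e₀ (e.symm (e (p y))) = e₀ (p y) := by rw [e.left_inv he.2]
  have hA := at_near hp he
  have hA0 := at_near hp h0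
  have hpt : ∀ᶠ y' in 𝓝 y, e₀ (e.symm (e (p y'))) = e₀ (p y') := by
    filter_upwards [hA] with y' h1
    rw [e.left_inv h1.2]
  have hbd : ∀ᶠ y' in 𝓝 y, DifferentiableAt ℂ b (e₀ (p y')) := by
    filter_upwards [(tend_ep hp h0).eventually hb.ban.eventually_analyticAt] with y' h1
    exact h1.differentiableAt
  have hdm : ∀ᶠ y' in 𝓝 y, ∀ ξ, dm (fun z => b (e₀ (e.symm z))) (e (p y')) ξ =
      dm b (e₀ (p y')) fun i => fderiv ℂ (fun z => e₀ (e.symm z)) (e (p y')) (ξ i) := by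
    filter_upwards [hA, hA0, hpt, hbd] with y' h1 h2 h3 h4
    intro ξ
    ext i j
    simp only [dm, Matrix.of_apply]
    have h5 := fderiv_fun_comp (𝕜 := ℂ) (g := b) (f := fun z => e₀ (e.symm z)) (e (p y'))
      (by rw [h3]; exact h4) (transition_differentiableAt h1 h2)
    rw [h5, h3]
    rfl
  refine ⟨he, ?_, ?_, ?_, ?_, ?_⟩
  · refine AnalyticAt.fun_comp (g := b) ?_ (tr_an he h0)
    rw [e1]
    exact hb.ban
  · rw [e1]
    exact hb.Dan
  · filter_upwards [hpt, hb.t_eq] with y' h1 h2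
    rw [h1, h2]
  · filter_upwards [hpt, hb.V_eq, hdm, hA, hA0] with y' h1 h2 h3 h4 h5
    intro ξ
    rw [h3, h1, ← h2, hV.change y' e e₀ h4 h5]
    rfl
  · filter_upwards [hpt, hb.W_eq, hdm, hA, hA0] with y' h1 h2 h3 h4 h5
    intro ξ i
    rw [h3, h1, ← h2, hW.change y' e e₀ h4 h5]
    rfl

variable [CompleteSpace H₁] [CompleteSpace H₂]

/-- the change of the chart of `X` -/
lemma natv_change (hp : IsLocalHomeomorph p) (hd : EDat p t V W)
    (Γ : NatOp q (k + 1) H₁ H₂ m H) {y : E} {e e' : Chart n X} (he : At e (p y))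
    (he' : At e' (p y)) (ξ : Fin (k + 1) → Cm n) :
    natv Γ p t V W y e ξ = natv Γ p t V W y e' fun i =>
      fderiv ℂ (fun z => e' (e.symm z)) (e (p y)) (ξ i) := by
  obtain ⟨F, hF, hF'⟩ := natv_hol hp hd Γ he
  obtain ⟨F', hG, hG'⟩ := natv_hol hp hd Γ he'
  let α : E → H := fun y' => F (e (p y'), ξ)
  let β : E → H := fun y' => F' (e' (p y'), fun i =>
    fderiv ℂ (fun z => e' (e.symm z)) (e (p y')) (ξ i))
  have hα : ContinuousAt α y := by
    refine ContinuousAt.comp (f := fun y' => (e (p y'), ξ)) (g := F) (hF ξ).continuousAt ?_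
    exact (tend_ep hp he).prodMk_nhds tendsto_const_nhds
  have hβ : ContinuousAt β y := by
    refine ContinuousAt.comp (f := fun y' => (e' (p y'), fun i =>
      fderiv ℂ (fun z => e' (e.symm z)) (e (p y')) (ξ i))) (g := F') (hG _).continuousAt ?_
    refine (tend_ep hp he').prodMk_nhds ?_
    refine tendsto_pi_nhds.2 fun i => ?_
    have h1 : ContinuousAt (fun z' => fderiv ℂ (fun z => e' (e.symm z)) z' (ξ i)) (e (p y)) :=
      ((tr_an he he').fderiv.continuousAt).clm_apply continuousAt_const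
    exact h1.tendsto.comp (tend_ep hp he)
  have hev : ∀ᶠ y' in 𝓝 y, (∀ ξ, natv Γ p t V W y' e ξ = F (e (p y'), ξ)) ∧
      (∀ ξ, natv Γ p t V W y' e' ξ = F' (e' (p y'), ξ)) ∧ At e (p y') ∧ At e' (p y') := by
    filter_upwards [hF', hG', at_near hp he, at_near hp he'] with y' h1 h2 h3 h4
    exact ⟨h1, h2, h3, h4⟩
  -- equality at the basic points
  have hfr : ∃ᶠ y' in 𝓝 y, α y' = β y' := by
    intro hne
    obtain ⟨y', ⟨e₀, b, D, hb⟩, h1, h2, h3, h4, h5⟩ := hd.basic.inter_nhds_nonempty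
      (Filter.inter_mem hne hev)
    have hbe := hb.chart hp hd.hV hd.hW h4
    have hbe' := hb.chart hp hd.hV hd.hW h5
    refine h1 ?_
    show F (e (p y'), ξ) = F' (e' (p y'), _)
    rw [← h2, ← h3, natv_basic hp hd Γ hbe, natv_basic hp hd Γ hbe']
    have e1 : e.symm (e (p y')) = p y' := e.left_inv h4.2
    have e2 : e'.symm (e' (p y')) = p y' := e'.left_inv h5.2
    simp only [e1, e2]
    congr 3
    ext i j
    simp only [dm, Matrix.of_apply]
    have h6 := fderiv_fun_comp (𝕜 := ℂ) (g := fun z => b (e₀ (e'.symm z)))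
      (f := fun z => e' (e.symm z)) (e (p y')) (by rw [e1]; exact hbe'.ban.differentiableAt)
      (transition_differentiableAt h4 h5)
    have h7 : (fun z => b (e₀ (e.symm z))) =ᶠ[𝓝 (e (p y'))]
        fun z => b (e₀ (e'.symm (e' (e.symm z)))) := by
      have h8 : ContinuousAt e.symm (e (p y')) := e.continuousAt_symm (e.map_source h4.2)
      have h9 : ∀ᶠ z in 𝓝 (e (p y')), e.symm z ∈ e'.source := by
        refine h8.eventually (e'.open_source.mem_nhds ?_)
        rw [e1]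
        exact h5.2
      filter_upwards [h9] with z hz
      rw [e'.left_inv hz]
    rw [h7.fderiv_eq, h6, e1]
    rfl
  have hy := (hF'.self_of_nhds) ξ
  have hy' := (hG'.self_of_nhds) fun i => fderiv ℂ (fun z => e' (e.symm z)) (e (p y)) (ξ i)
  rw [hy, hy']
  show α y = β y
  by_contra hne
  have := (hα.sub hβ).eventually_ne (sub_ne_zero.2 hne)
  exact hfr (this.mono fun y' h => by
    intro h'
    exact h (sub_eq_zero.2 h'))

end chart

section group
variable {G : Type} [Group G] [MulAction G E] [CompleteSpace H₁] [CompleteSpace H₂]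

/-- equivariance of the natural section, one element -/
lemma natv_act (hp : IsLocalHomeomorph p) (hc : ∀ g : G, Continuous fun y : E => g • y)
    (hpg : ∀ (g : G) y, p (g • y) = p y) (hd : EDat p t V W)
    (Γ : NatOp q (k + 1) H₁ H₂ m H) {U₁ : H₁ →ₗᵢ[ℂ] H₁} {U₂ : H₂ →ₗᵢ[ℂ] H₂} {c : Cm q} {g : G}
    (hU : ∀ y, t (g • y) = t y + c ∧ ∀ e : Chart n X, At e (p y) →
      (∀ ξ, V (g • y) e ξ = U₁ (V y e ξ)) ∧ ∀ ξ, W (g • y) e ξ = U₂ (W y e ξ))
    {y : E} {e : Chart n X} (he : At e (p y)) (ξ : Fin (k + 1) → Cm n) :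
    ∃ D : Dat q (k + 1) H₁ H₂, D.An 0 ∧ natv Γ p t V W y e ξ = Γ.op D 0 ∧
      natv Γ p t V W (g • y) e ξ = Γ.op (D.act U₁ U₂ c) 0 := by
  have hpe : p (g • y) = p y := hpg g y
  have he' : At e (p (g • y)) := by rw [hpe]; exact he
  obtain ⟨ft, ht⟩ := hd.ht y e he
  obtain ⟨fV, hV⟩ := hd.hV.holo y e he
  obtain ⟨fW, hW⟩ := hd.hW.holo y e he
  obtain ⟨ft', ht'⟩ := hd.ht (g • y) e he'
  obtain ⟨fV', hV'⟩ := hd.hV.holo (g • y) e he'
  obtain ⟨fW', hW'⟩ := hd.hW.holo (g • y) e he'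
  refine ⟨asl ft fV fW (e (p y)) ξ, asl_an ht.an hV.an hW.an ξ,
    natv_eq hp Γ he ht hV hW ξ, ?_⟩
  rw [natv_eq hp Γ he' ht' hV' hW', hpe]
  have hgt : Tendsto (fun y' : E => g • y') (𝓝 y) (𝓝 (g • y)) := (hc g).tendsto y
  have hA := at_near hp he
  have k1 : ∀ᶠ z in 𝓝 (e (p y)), ft' z = ft z + c := by
    refine (ev_iff hp he).1 ?_
    filter_upwards [ht.eq, hgt.eventually ht'.eq] with y' h1 h2
    rw [hpg] at h2
    rw [← h2, (hU y').1, h1]
  have k2 : ∀ᶠ z in 𝓝 (e (p y)), ∀ ξ, fV' z ξ = U₁ (fV z ξ) := by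
    refine (ev_iff hp he).1 ?_
    filter_upwards [hV.eq, hgt.eventually hV'.eq, hA] with y' h1 h2 h3
    intro ξ
    rw [hpg] at h2
    rw [← h2, ((hU y').2 e h3).1, h1]
  have k3 : ∀ᶠ z in 𝓝 (e (p y)), ∀ ξ, fW' z ξ = U₂ (fW z ξ) := by
    refine (ev_iff hp he).1 ?_
    filter_upwards [hW.eq, hgt.eventually hW'.eq, hA] with y' h1 h2 h3
    intro ξ
    rw [hpg] at h2
    rw [← h2, ((hU y').2 e h3).2, h1]
  have h0 : Tendsto (fun x : Cm (k + 1) => e (p y) + ∑ j, x j • ξ j) (𝓝 0) (𝓝 (e (p y))) := by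
    have : Continuous fun x : Cm (k + 1) => e (p y) + ∑ j, x j • ξ j := by fun_prop
    have h1 := this.tendsto 0
    rwa [aff_zero] at h1
  refine Γ.loc _ _ _ ⟨?_, ?_, ?_⟩
  · filter_upwards [h0.eventually k1] with x hx
    exact hx
  · filter_upwards [h0.eventually k2] with x hx
    exact hx ξ
  · filter_upwards [h0.eventually k3] with x hx
    funext i
    show (-1 : ℂ) ^ (i : ℕ) • fW' _ _ = U₂ ((-1 : ℂ) ^ (i : ℕ) • fW _ _)
    rw [map_smul, hx]

/-- equivariance of the natural section: the isometry depends only on `U₁`, `U₂` -/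
theorem natv_equiv' (hp : IsLocalHomeomorph p) (hc : ∀ g : G, Continuous fun y : E => g • y)
    (hpg : ∀ (g : G) y, p (g • y) = p y) (hd : EDat p t V W)
    (Γ : NatOp q (k + 1) H₁ H₂ m H) (U₁ : H₁ →ₗᵢ[ℂ] H₁) (U₂ : H₂ →ₗᵢ[ℂ] H₂) :
    ∃ U : H →ₗᵢ[ℂ] H, ∀ (g : G) (c : Cm q), (∀ y, t (g • y) = t y + c ∧
      ∀ e : Chart n X, At e (p y) → (∀ ξ, V (g • y) e ξ = U₁ (V y e ξ)) ∧
        ∀ ξ, W (g • y) e ξ = U₂ (W y e ξ)) →
      ∀ (y : E) (e : Chart n X), At e (p y) → ∀ ξ,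
        natv Γ p t V W (g • y) e ξ = U (natv Γ p t V W y e ξ) := by
  obtain ⟨U, hU'⟩ := Γ.iso U₁ U₂
  refine ⟨U, fun g c hU y e he ξ => ?_⟩
  obtain ⟨D, hD, h1, h2⟩ := natv_act hp hc hpg hd Γ hU he ξ
  rw [h1, h2]
  exact hU' c D 0 hD

/-- an element which does not change `V`, `W` does not change the natural section -/
theorem natv_fix (hp : IsLocalHomeomorph p) (hc : ∀ g : G, Continuous fun y : E => g • y)
    (hpg : ∀ (g : G) y, p (g • y) = p y) (hd : EDat p t V W)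
    (Γ : NatOp q (k + 1) H₁ H₂ m H) {g : G} {c : Cm q} (hU : ∀ y, t (g • y) = t y + c ∧
      ∀ e : Chart n X, At e (p y) → (∀ ξ, V (g • y) e ξ = V y e ξ) ∧
        ∀ ξ, W (g • y) e ξ = W y e ξ) (y : E) (e : Chart n X) (he : At e (p y))
    (ξ : Fin (k + 1) → Cm n) : natv Γ p t V W (g • y) e ξ = natv Γ p t V W y e ξ := by
  obtain ⟨D, hD, h1, h2⟩ := natv_act hp hc hpg hd Γ (U₁ := LinearIsometry.id)
    (U₂ := LinearIsometry.id) (c := c) (g := g) hU he ξ
  obtain ⟨U, hU'⟩ := Γ.iso LinearIsometry.id LinearIsometry.id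
  have h3 : D.act LinearIsometry.id LinearIsometry.id 0 = D := by
    cases D
    simp [Dat.act]
  have h4 := hU' 0 D 0 hD
  rw [h3] at h4
  rw [h1, h2, hU' c D 0 hD, ← h4]

/-- equivariance of the natural section -/
theorem natv_equiv (hp : IsLocalHomeomorph p) (hc : ∀ g : G, Continuous fun y : E => g • y)
    (hpg : ∀ (g : G) y, p (g • y) = p y) (hd : EDat p t V W) (ha : EqAct G p t V W)
    (Γ : NatOp q (k + 1) H₁ H₂ m H) (g : G) :
    ∃ U : H →ₗᵢ[ℂ] H, ∀ (y : E) (e : Chart n X), At e (p y) → ∀ ξ,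
      natv Γ p t V W (g • y) e ξ = U (natv Γ p t V W y e ξ) := by
  obtain ⟨U₁, U₂, c, hU⟩ := ha g
  obtain ⟨U, hU'⟩ := natv_equiv' hp hc hpg hd Γ U₁ U₂
  exact ⟨U, hU' g c hU⟩

variable [IsManifold 𝓘(ℂ, Cm n) ω X]

/-- **the natural section is an `HForm`** -/
theorem hform_natv (hp : IsGalois G p) (hd : EDat p t V W) (ha : EqAct G p t V W)
    (Γ : NatOp q (k + 1) H₁ H₂ m H) : HForm n (k + 1) m p H (natv Γ p t V W) := by
  have hl : IsLocalHomeomorph p := hp.cov.isLocalHomeomorph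
  refine ⟨fun y e he => natv_hol hl hd Γ he, fun y e e' he he' ξ => natv_change hl hd Γ he he' ξ,
    fun y e he A ξ => natv_det hl hd Γ he A ξ, ?_⟩
  intro y y₁ e he hyy ξ
  obtain ⟨g, rfl⟩ := (hp.orb y y₁).1 hyy
  obtain ⟨U, hU⟩ := natv_equiv hl hp.cont (fun g y => ((hp.orb y (g • y)).2 ⟨g, rfl⟩).symm) hd ha Γ g
  rw [hU y e he ξ, U.norm_map]

end group

/-- **good points of the natural section** -/
theorem goodAt_natv [CompleteSpace H₁] [CompleteSpace H₂] (hp : IsLocalHomeomorph p)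
    (hd : EDat p t V W) (Γ : NatOp q (k + 1) H₁ H₂ m H) {y : E} {e : Chart n X}
    {b : Cm n → Cm (k + 1)} {D : Dat q (k + 1) H₁ H₂} (hb : BasicAt p t V W y e b D)
    (hs : Function.Surjective (fderiv ℂ b (e (p y)))) (hi : ImmAt (Γ.op D) (b (e (p y)))) :
    GoodAt p (k + 1) m (natv Γ p t V W) y := by
  refine ⟨e, b, Γ.op D, hb.mem, hb.ban, hs, ?_, hi, ?_⟩
  · -- analyticity of `Γ.op D`
    have h1 : JAn (fun _ : ℂ => D) 0 (b (e (p y))) := by
      have h2 : AnalyticAt ℂ (fun y' : ℂ × Cm (k + 1) => y'.2) (0, b (e (p y))) :=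
        (ContinuousLinearMap.snd ℂ ℂ (Cm (k + 1))).analyticAt _
      exact ⟨AnalyticAt.fun_comp (g := D.t) hb.Dan.1 h2,
        AnalyticAt.fun_comp (g := D.v) hb.Dan.2.1 h2,
        AnalyticAt.fun_comp (g := D.w) hb.Dan.2.2 h2⟩
    have h3 := Γ.an ℂ _ _ _ h1
    have h4 : AnalyticAt ℂ (fun x : Cm (k + 1) => ((0, x) : ℂ × Cm (k + 1))) (b (e (p y))) :=
      analyticAt_const.prod analyticAt_id
    exact AnalyticAt.fun_comp (f := fun x : Cm (k + 1) => ((0, x) : ℂ × Cm (k + 1)))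
      (g := fun y' : ℂ × Cm (k + 1) => Γ.op D y'.2) h3 h4
  · filter_upwards [hb.near hp] with y' h1
    intro ξ
    exact natv_basic hp hd Γ h1 ξ

end Vale.Agent.P284.H338
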