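import Vale.Agent.P284.H338.ES
import Mathlib.Topology.Covering.Basic
import Mathlib.Analysis.Analytic.Composition
import Mathlib.Analysis.Calculus.FDeriv.Analytic
import Mathlib.Analysis.Calculus.ContDiff.Bounds

/-!
# P284 (helper338), module NS (e): `natv Γ` is an `HForm`
-/

open scoped Manifold ContDiff Topology
open Filter

noncomputable section

namespace Vale.Agent.P284.H338

open Vale.Agent.P272.K Vale.Agent.P284.H573 Vale.Agent.P284.H625 Vale.Agent.P284.H894.G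

section nhds
variable {n : ℕ} {X E : Type} [TopologicalSpace X] [ChartedSpace (Cm n) X]
  [TopologicalSpace E] {p : E → X}

/-- `e ∘ p` is a local homeomorphism at `y` -/
lemma map_ep (hp : IsLocalHomeomorph p) {y : E} {e : Chart n X} (he : At e (p y)) :
    Filter.map (fun y' => e (p y')) (𝓝 y) = 𝓝 (e (p y)) := by
  have h1 : Filter.map p (𝓝 y) = 𝓝 (p y) := hp.map_nhds_eq y
  have h2 : Filter.map e (𝓝 (p y)) = 𝓝 (e (p y)) := e.map_nhds_eq he.2
  rw [← h2, ← h1, Filter.map_map]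
  rfl

lemma ev_iff (hp : IsLocalHomeomorph p) {y : E} {e : Chart n X} (he : At e (p y))
    {P : Cm n → Prop} : (∀ᶠ y' in 𝓝 y, P (e (p y'))) ↔ ∀ᶠ z in 𝓝 (e (p y)), P z := by
  rw [← map_ep hp he]
  exact Iff.rfl

lemma at_near (hp : IsLocalHomeomorph p) {y : E} {e : Chart n X} (he : At e (p y)) :
    ∀ᶠ y' in 𝓝 y, At e (p y') := by
  have h1 : ContinuousAt p y := hp.continuous.continuousAt
  filter_upwards [h1.eventually (e.open_source.mem_nhds he.2)] with y' hy'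
  exact ⟨he.1, hy'⟩

lemma tend_ep (hp : IsLocalHomeomorph p) {y : E} {e : Chart n X} (he : At e (p y)) :
    Tendsto (fun y' => e (p y')) (𝓝 y) (𝓝 (e (p y))) := by
  rw [← map_ep hp he]
  exact tendsto_map

variable {T : Type} [NormedAddCommGroup T] [NormedSpace ℂ T]

lemma Rep.near [CompleteSpace T] (hp : IsLocalHomeomorph p) {y : E} {e : Chart n X}
    (he : At e (p y)) {f : Cm n → T} {g : E → T} (h : Rep p e y f g) :
    ∀ᶠ y' in 𝓝 y, Rep p e y' f g := by
  filter_upwards [(tend_ep hp he).eventually h.an.eventually_analyticAt,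
    h.eq.eventually_nhds] with y' h1 h2
  exact ⟨h1, h2⟩

lemma Rep.unique (hp : IsLocalHomeomorph p) {y : E} {e : Chart n X} (he : At e (p y))
    {f f' : Cm n → T} {g : E → T} (h : Rep p e y f g) (h' : Rep p e y f' g) :
    f =ᶠ[𝓝 (e (p y))] f' := by
  refine (ev_iff hp he).1 ?_
  filter_upwards [h.eq, h'.eq] with y' h1 h2
  exact h1.symm.trans h2

end nhds

section slice
variable {n q k : ℕ} {H₁ H₂ : Type} [NormedAddCommGroup H₁] [InnerProductSpace ℂ H₁]
  [NormedAddCommGroup H₂] [InnerProductSpace ℂ H₂]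

lemma aff_zero (z : Cm n) (ξ : Fin (k + 1) → Cm n) : z + ∑ j, (0 : Cm (k + 1)) j • ξ j = z := by
  simp

/-- the affine slice is jointly analytic -/
lemma aff_an (z : Cm n) (ξ : Fin (k + 1) → Cm n) :
    AnalyticAt ℂ (fun y : (Cm n × (Fin (k + 1) → Cm n)) × Cm (k + 1) =>
      y.1.1 + ∑ j, y.2 j • y.1.2 j) ((z, ξ), 0) := by
  have h1 : AnalyticAt ℂ (fun y : (Cm n × (Fin (k + 1) → Cm n)) × Cm (k + 1) => y.1.1)
      ((z, ξ), 0) :=
    ((ContinuousLinearMap.fst ℂ (Cm n) (Fin (k + 1) → Cm n)).comp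
      (ContinuousLinearMap.fst ℂ (Cm n × (Fin (k + 1) → Cm n)) (Cm (k + 1)))).analyticAt _
  refine h1.add (Finset.analyticAt_fun_sum _ fun j _ => ?_)
  have h2 : AnalyticAt ℂ (fun y : (Cm n × (Fin (k + 1) → Cm n)) × Cm (k + 1) => y.2 j)
      ((z, ξ), 0) :=
    ((ContinuousLinearMap.proj (R := ℂ) (φ := fun _ : Fin (k + 1) => ℂ) j).comp
      (ContinuousLinearMap.snd ℂ (Cm n × (Fin (k + 1) → Cm n)) (Cm (k + 1)))).analyticAt _
  have h3 : AnalyticAt ℂ (fun y : (Cm n × (Fin (k + 1) → Cm n)) × Cm (k + 1) => y.1.2 j)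
      ((z, ξ), 0) :=
    ((ContinuousLinearMap.proj (R := ℂ) (φ := fun _ : Fin (k + 1) => Cm n) j).comp
      ((ContinuousLinearMap.snd ℂ (Cm n) (Fin (k + 1) → Cm n)).comp
      (ContinuousLinearMap.fst ℂ (Cm n × (Fin (k + 1) → Cm n)) (Cm (k + 1))))).analyticAt _
  exact h2.smul h3

/-- expansion of an alternating form in the standard basis -/
lemma alt_expand {T : Type} [NormedAddCommGroup T] [NormedSpace ℂ T] {l : ℕ}
    (A : Cm n [⋀^Fin l]→L[ℂ] T) (ξ : Fin l → Cm n) :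
    A ξ = ∑ s : Fin l → Fin n, (∏ j, ξ j (s j)) • A fun j => Pi.single (s j) 1 := by
  have h1 : ∀ j, ξ j = ∑ i, ξ j i • (Pi.single i (1 : ℂ) : Cm n) := fun j => by
    conv_lhs => rw [← Finset.univ_sum_single (ξ j)]
    refine Finset.sum_congr rfl fun i _ => ?_
    ext c
    by_cases h : c = i
    · subst h; simp
    · simp [h]
  have h2 := (A.toMultilinearMap : MultilinearMap ℂ (fun _ : Fin l => Cm n) T).map_sum
    (fun j i => ξ j i • (Pi.single i (1 : ℂ) : Cm n))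
  have h3 : A ξ = A fun j => ∑ i, ξ j i • (Pi.single i (1 : ℂ) : Cm n) :=
    congrArg A (funext h1)
  rw [h3]
  refine h2.trans (Finset.sum_congr rfl fun s _ => ?_)
  exact (A.toMultilinearMap : MultilinearMap ℂ (fun _ : Fin l => Cm n) T).map_smul_univ
    (fun j => ξ j (s j)) (fun j => Pi.single (s j) 1)

/-- evaluation of an analytic family of alternating forms on analytic vectors -/
lemma alt_an {T : Type} [NormedAddCommGroup T] [NormedSpace ℂ T] {l : ℕ} {P : Type}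
    [NormedAddCommGroup P] [NormedSpace ℂ P] {A : P → Cm n [⋀^Fin l]→L[ℂ] T} {ξ : P → Fin l → Cm n}
    {x : P} (hA : AnalyticAt ℂ A x) (hξ : AnalyticAt ℂ ξ x) :
    AnalyticAt ℂ (fun y => A y (ξ y)) x := by
  have h1 : (fun y => A y (ξ y)) =
      fun y => ∑ s : Fin l → Fin n, (∏ j, ξ y j (s j)) • A y fun j => Pi.single (s j) 1 := by
    funext y
    exact alt_expand _ _
  rw [h1]
  refine Finset.analyticAt_fun_sum _ fun s _ => ?_
  refine AnalyticAt.smul ?_ ?_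
  · refine Finset.analyticAt_fun_prod _ fun j _ => ?_
    exact ((ContinuousLinearMap.proj (R := ℂ) (φ := fun _ : Fin n => ℂ) (s j)).comp
      (ContinuousLinearMap.proj (R := ℂ) (φ := fun _ : Fin l => Cm n) j)).analyticAt _ |>.fun_comp hξ
  · exact ((ContinuousAlternatingMap.apply ℂ (Cm n) T
      (fun j => (Pi.single (s j) 1 : Cm n))).analyticAt _).fun_comp hA

end slice

section main
variable {n q k m : ℕ} {X E : Type} [TopologicalSpace X] [ChartedSpace (Cm n) X]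
  [TopologicalSpace E] {p : E → X}
  {H₁ H₂ H : Type} [NormedAddCommGroup H₁] [InnerProductSpace ℂ H₁]
  [NormedAddCommGroup H₂] [InnerProductSpace ℂ H₂] [NormedAddCommGroup H] [InnerProductSpace ℂ H]
  {t : E → Cm q} {V : E → Chart n X → Cm n [⋀^Fin (k + 1)]→L[ℂ] H₁}
  {W : E → Chart n X → Cm n [⋀^Fin k]→L[ℂ] H₂}

/-- the affine data of representatives of the same functions agree -/
lemma asl_eqv {ft ft' : Cm n → Cm q} {fV fV' : Cm n → Cm n [⋀^Fin (k + 1)]→L[ℂ] H₁}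
    {fW fW' : Cm n → Cm n [⋀^Fin k]→L[ℂ] H₂} {z : Cm n} (ht : ft =ᶠ[𝓝 z] ft')
    (hV : fV =ᶠ[𝓝 z] fV') (hW : fW =ᶠ[𝓝 z] fW') (ξ : Fin (k + 1) → Cm n) :
    (asl ft fV fW z ξ).Eqv (asl ft' fV' fW' z ξ) 0 := by
  have h0 : Tendsto (fun x : Cm (k + 1) => z + ∑ j, x j • ξ j) (𝓝 0) (𝓝 z) := by
    have : Continuous fun x : Cm (k + 1) => z + ∑ j, x j • ξ j := by fun_prop
    have h1 := this.tendsto 0
    rwa [aff_zero] at h1
  refine ⟨?_, ?_, ?_⟩
  · filter_upwards [h0.eventually ht] with x hx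
    exact hx
  · filter_upwards [h0.eventually hV] with x hx
    show fV _ ξ = fV' _ ξ
    rw [hx]
  · filter_upwards [h0.eventually hW] with x hx
    funext i
    show (-1 : ℂ) ^ (i : ℕ) • fW _ _ = (-1 : ℂ) ^ (i : ℕ) • fW' _ _
    rw [hx]

/-- `natv` can be computed with any representatives -/
lemma natv_eq (hp : IsLocalHomeomorph p) (Γ : NatOp q (k + 1) H₁ H₂ m H) {y : E} {e : Chart n X}
    (he : At e (p y)) {ft : Cm n → Cm q} {fV : Cm n → Cm n [⋀^Fin (k + 1)]→L[ℂ] H₁}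
    {fW : Cm n → Cm n [⋀^Fin k]→L[ℂ] H₂} (ht : Rep p e y ft t)
    (hV : Rep p e y fV fun y' => V y' e) (hW : Rep p e y fW fun y' => W y' e)
    (ξ : Fin (k + 1) → Cm n) :
    natv Γ p t V W y e ξ = Γ.op (asl ft fV fW (e (p y)) ξ) 0 := by
  have h : (∃ f, Rep p e y f t) ∧ (∃ f, Rep p e y f fun y' => V y' e) ∧
      (∃ f, Rep p e y f fun y' => W y' e) := ⟨⟨ft, ht⟩, ⟨fV, hV⟩, ⟨fW, hW⟩⟩
  rw [natv, dif_pos h]
  exact Γ.loc _ _ _ (asl_eqv (h.1.choose_spec.unique hp he ht)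
    (h.2.1.choose_spec.unique hp he hV) (h.2.2.choose_spec.unique hp he hW) ξ)

/-- joint analyticity of the slice data -/
lemma asl_jan {ft : Cm n → Cm q} {fV : Cm n → Cm n [⋀^Fin (k + 1)]→L[ℂ] H₁}
    {fW : Cm n → Cm n [⋀^Fin k]→L[ℂ] H₂} {z : Cm n} (ht : AnalyticAt ℂ ft z)
    (hV : AnalyticAt ℂ fV z) (hW : AnalyticAt ℂ fW z) (ξ : Fin (k + 1) → Cm n) :
    JAn (fun a : Cm n × (Fin (k + 1) → Cm n) => asl ft fV fW a.1 a.2) (z, ξ) 0 := by
  have ha := aff_an z ξ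
  have h0 : (z : Cm n) + ∑ j, (0 : Cm (k + 1)) j • ξ j = z := aff_zero z ξ
  refine ⟨?_, ?_, ?_⟩
  · refine AnalyticAt.fun_comp (g := ft) ?_ ha
    simpa using ht
  · refine alt_an (A := fun y : (Cm n × (Fin (k + 1) → Cm n)) × Cm (k + 1) =>
      fV (y.1.1 + ∑ j, y.2 j • y.1.2 j)) (ξ := fun y => y.1.2) ?_ ?_
    · refine AnalyticAt.fun_comp (g := fV) ?_ ha
      simpa using hV
    · exact ((ContinuousLinearMap.snd ℂ (Cm n) (Fin (k + 1) → Cm n)).comp
        (ContinuousLinearMap.fst ℂ (Cm n × (Fin (k + 1) → Cm n)) (Cm (k + 1)))).analyticAt _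
  · refine AnalyticAt.pi fun i => ?_
    refine AnalyticAt.const_smul ?_
    refine alt_an (A := fun y : (Cm n × (Fin (k + 1) → Cm n)) × Cm (k + 1) =>
      fW (y.1.1 + ∑ j, y.2 j • y.1.2 j)) (ξ := fun y => fun l => y.1.2 (i.succAbove l)) ?_ ?_
    · refine AnalyticAt.fun_comp (g := fW) ?_ ha
      simpa using hW
    · refine AnalyticAt.pi fun l => ?_
      exact ((ContinuousLinearMap.proj (R := ℂ) (φ := fun _ : Fin (k + 1) => Cm n)
        (i.succAbove l)).comp ((ContinuousLinearMap.snd ℂ (Cm n) (Fin (k + 1) → Cm n)).comp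
        (ContinuousLinearMap.fst ℂ (Cm n × (Fin (k + 1) → Cm n)) (Cm (k + 1))))).analyticAt _

lemma jan_an {P : Type} [NormedAddCommGroup P] [NormedSpace ℂ P] {D : P → Dat q (k + 1) H₁ H₂}
    {a : P} {x : Cm (k + 1)} (h : JAn D a x) : (D a).An x := by
  have hs : AnalyticAt ℂ (fun x' : Cm (k + 1) => ((a, x') : P × Cm (k + 1))) x :=
    analyticAt_const.prod analyticAt_id
  exact ⟨h.1.fun_comp hs, h.2.1.fun_comp hs, h.2.2.fun_comp hs⟩

lemma asl_an {ft : Cm n → Cm q} {fV : Cm n → Cm n [⋀^Fin (k + 1)]→L[ℂ] H₁}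
    {fW : Cm n → Cm n [⋀^Fin k]→L[ℂ] H₂} {z : Cm n} (ht : AnalyticAt ℂ ft z)
    (hV : AnalyticAt ℂ fV z) (hW : AnalyticAt ℂ fW z) (ξ : Fin (k + 1) → Cm n) :
    (asl ft fV fW z ξ).An 0 :=
  jan_an (D := fun a : Cm n × (Fin (k + 1) → Cm n) => asl ft fV fW a.1 a.2) (a := (z, ξ))
    (asl_jan ht hV hW ξ)

/-- the values of the natural section are jointly analytic -/
lemma op_asl_an (Γ : NatOp q (k + 1) H₁ H₂ m H) {ft : Cm n → Cm q}
    {fV : Cm n → Cm n [⋀^Fin (k + 1)]→L[ℂ] H₁} {fW : Cm n → Cm n [⋀^Fin k]→L[ℂ] H₂} {z : Cm n}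
    (ht : AnalyticAt ℂ ft z) (hV : AnalyticAt ℂ fV z) (hW : AnalyticAt ℂ fW z)
    (ξ : Fin (k + 1) → Cm n) :
    AnalyticAt ℂ (fun a : Cm n × (Fin (k + 1) → Cm n) => Γ.op (asl ft fV fW a.1 a.2) 0)
      (z, ξ) := by
  have h1 := Γ.an _ _ _ _ (asl_jan ht hV hW ξ)
  have hs : AnalyticAt ℂ (fun a : Cm n × (Fin (k + 1) → Cm n) =>
      ((a, 0) : (Cm n × (Fin (k + 1) → Cm n)) × Cm (k + 1))) (z, ξ) :=
    analyticAt_id.prod analyticAt_const
  exact AnalyticAt.fun_comp (f := fun a : Cm n × (Fin (k + 1) → Cm n) =>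
      ((a, 0) : (Cm n × (Fin (k + 1) → Cm n)) × Cm (k + 1)))
    (g := fun y => Γ.op (asl ft fV fW y.1.1 y.1.2) y.2) h1 hs

variable [CompleteSpace H₁] [CompleteSpace H₂]

/-- the natural section has holomorphic local representatives -/
lemma natv_hol (hp : IsLocalHomeomorph p) (hd : EDat p t V W) (Γ : NatOp q (k + 1) H₁ H₂ m H)
    {y : E} {e : Chart n X} (he : At e (p y)) : ∃ F : Cm n × (Fin (k + 1) → Cm n) → H,
    (∀ ξ, AnalyticAt ℂ F (e (p y), ξ)) ∧
      ∀ᶠ y' in 𝓝 y, ∀ ξ, natv Γ p t V W y' e ξ = F (e (p y'), ξ) := by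
  obtain ⟨ft, ht⟩ := hd.ht y e he
  obtain ⟨fV, hV⟩ := hd.hV.holo y e he
  obtain ⟨fW, hW⟩ := hd.hW.holo y e he
  refine ⟨fun a => Γ.op (asl ft fV fW a.1 a.2) 0, fun ξ => op_asl_an Γ ht.an hV.an hW.an ξ, ?_⟩
  filter_upwards [ht.near hp he, hV.near hp he, hW.near hp he, at_near hp he] with y' h1 h2 h3 h4
  intro ξ
  exact natv_eq hp Γ h4 h1 h2 h3 ξ

/-- the linear change of the frame -/
lemma natv_det (hp : IsLocalHomeomorph p) (hd : EDat p t V W) (Γ : NatOp q (k + 1) H₁ H₂ m H)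
    {y : E} {e : Chart n X} (he : At e (p y)) (A : Matrix (Fin (k + 1)) (Fin (k + 1)) ℂ)
    (ξ : Fin (k + 1) → Cm n) :
    natv Γ p t V W y e (fun i => ∑ j, A i j • ξ j) = A.det ^ m • natv Γ p t V W y e ξ := by
  obtain ⟨ft, ht⟩ := hd.ht y e he
  obtain ⟨fV, hV⟩ := hd.hV.holo y e he
  obtain ⟨fW, hW⟩ := hd.hW.holo y e he
  rw [natv_eq hp Γ he ht hV hW, natv_eq hp Γ he ht hV hW]
  let h : Cm (k + 1) →L[ℂ] Cm (k + 1) := Matrix.toLin' A.transpose |>.toContinuousLinearMap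
  have hh : ∀ x j, h x j = ∑ i, x i * A i j := fun x j => by
    show (A.transpose.mulVec x) j = _
    simp [Matrix.mulVec, dotProduct, mul_comm]
  have hjac : ∀ x, jac h x = A.transpose := by
    intro x
    ext i j
    simp only [jac, Matrix.of_apply, ContinuousLinearMap.fderiv]
    rw [hh]
    simp [Pi.single_apply]
  have hσ : ∀ x : Cm (k + 1), (e (p y)) + ∑ i, x i • ∑ j, A i j • ξ j =
      e (p y) + ∑ j, h x j • ξ j := by
    intro x
    congr 1
    simp only [Finset.smul_sum, hh, Finset.sum_smul]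
    rw [Finset.sum_comm]
    refine Finset.sum_congr rfl fun j _ => Finset.sum_congr rfl fun i _ => ?_
    rw [smul_smul]
  have hD : asl ft fV fW (e (p y)) (fun i => ∑ j, A i j • ξ j) =
      (asl ft fV fW (e (p y)) ξ).pull h := by
    have e1 : (asl ft fV fW (e (p y)) (fun i => ∑ j, A i j • ξ j)).t =
        ((asl ft fV fW (e (p y)) ξ).pull h).t := by
      funext x
      show ft _ = ft _
      rw [hσ]
    have e2 : (asl ft fV fW (e (p y)) (fun i => ∑ j, A i j • ξ j)).v =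
        ((asl ft fV fW (e (p y)) ξ).pull h).v := by
      funext x
      show fV _ (fun i => ∑ j, A i j • ξ j) = (jac h x).det • fV _ ξ
      rw [hσ, hjac, Matrix.det_transpose]
      exact alt_mul (fV (e (p y) + ∑ j, h x j • ξ j)).toAlternatingMap A ξ
    have e3 : (asl ft fV fW (e (p y)) (fun i => ∑ j, A i j • ξ j)).w =
        ((asl ft fV fW (e (p y)) ξ).pull h).w := by
      funext x i
      show (-1 : ℂ) ^ (i : ℕ) • fW _ (fun l => ∑ j, A (i.succAbove l) j • ξ j) =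
        ∑ j, (jac h x).adjugate i j • ((-1 : ℂ) ^ (j : ℕ) • fW _ fun l => ξ (j.succAbove l))
      rw [hσ, hjac]
      exact adj_alt (fW (e (p y) + ∑ j, h x j • ξ j)).toAlternatingMap A ξ i
    cases hA : asl ft fV fW (e (p y)) (fun i => ∑ j, A i j • ξ j)
    cases hB : (asl ft fV fW (e (p y)) ξ).pull h
    rw [hA, hB] at e1 e2 e3
    simp only at e1 e2 e3
    rw [e1, e2, e3]
  rw [hD]
  have h0 : h 0 = 0 := map_zero h
  have := Γ.pull (asl ft fV fW (e (p y)) ξ) h 0 (h.analyticAt _)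
    (by rw [h0]; exact asl_an ht.an hV.an hW.an ξ)
  rw [this, hjac, Matrix.det_transpose, h0]

/-- at a basic point the natural section has the normal form -/
lemma natv_basic (hp : IsLocalHomeomorph p) (hd : EDat p t V W) (Γ : NatOp q (k + 1) H₁ H₂ m H)
    {y : E} {e : Chart n X} {b : Cm n → Cm (k + 1)} {D : Dat q (k + 1) H₁ H₂}
    (hb : BasicAt p t V W y e b D) (ξ : Fin (k + 1) → Cm n) :
    natv Γ p t V W y e ξ = (dm b (e (p y)) ξ).det ^ m • Γ.op D (b (e (p y))) := by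
  have he := hb.mem
  obtain ⟨ft, ht⟩ := hd.ht y e he
  obtain ⟨fV, hV⟩ := hd.hV.holo y e he
  obtain ⟨fW, hW⟩ := hd.hW.holo y e he
  rw [natv_eq hp Γ he ht hV hW]
  set z := e (p y) with hz
  let σ : Cm (k + 1) → Cm n := fun x => z + ∑ j, x j • ξ j
  let L : Cm (k + 1) →L[ℂ] Cm n :=
    ∑ j, (ContinuousLinearMap.proj (R := ℂ) (φ := fun _ : Fin (k + 1) => ℂ) j).smulRight (ξ j)
  have hL : ∀ x, L x = ∑ j, x j • ξ j := fun x => by simp [L]
  have hσL : σ = fun x => z + L x := by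
    funext x
    simp only [σ, hL]
  have hσd : ∀ x, HasFDerivAt σ L x := by
    intro x
    rw [hσL]
    exact L.hasFDerivAt.const_add z
  have hσa : ∀ x, AnalyticAt ℂ σ x := by
    intro x
    rw [hσL]
    exact analyticAt_const.add (L.analyticAt x)
  have hσ0 : σ 0 = z := aff_zero z ξ
  have hσt : Tendsto σ (𝓝 0) (𝓝 z) := by
    have := (hσa 0).continuousAt.tendsto
    rwa [hσ0] at this
  -- the equalities for the representatives
  have k1 : ∀ᶠ z' in 𝓝 z, ft z' = D.t (b z') := by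
    refine (ev_iff hp he).1 ?_
    filter_upwards [ht.eq, hb.t_eq] with y' h1 h2
    exact h1.symm.trans h2
  have k2 : ∀ᶠ z' in 𝓝 z, ∀ ξ, fV z' ξ = (dm b z' ξ).det • D.v (b z') := by
    refine (ev_iff hp he).1 ?_
    filter_upwards [hV.eq, hb.V_eq] with y' h1 h2
    intro ξ
    rw [← h1, h2]
  have k3 : ∀ᶠ z' in 𝓝 z, ∀ (ξ : Fin (k + 1) → Cm n) (i : Fin (k + 1)),
      ((-1 : ℂ) ^ (i : ℕ) • fW z' fun l => ξ (i.succAbove l)) =
      ∑ j, (dm b z' ξ).adjugate i j • D.w (b z') j := by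
    refine (ev_iff hp he).1 ?_
    filter_upwards [hW.eq, hb.W_eq] with y' h1 h2
    intro ξ i
    rw [← h1, h2]
  have k4 : ∀ᶠ z' in 𝓝 z, DifferentiableAt ℂ b z' := by
    filter_upwards [hb.ban.eventually_analyticAt] with z' h
    exact h.differentiableAt
  let h : Cm (k + 1) → Cm (k + 1) := fun x => b (σ x)
  have hjac : ∀ᶠ x in 𝓝 (0 : Cm (k + 1)), jac h x = dm b (σ x) ξ := by
    filter_upwards [hσt.eventually k4] with x hx
    ext i j
    simp only [jac, dm, Matrix.of_apply]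
    have h1 : HasFDerivAt h ((fderiv ℂ b (σ x)).comp L) x :=
      hx.hasFDerivAt.comp x (hσd x)
    rw [h1.fderiv]
    simp [hL, Pi.single_apply]
  have hE : (asl ft fV fW z ξ).Eqv (D.pull h) 0 := by
    refine ⟨?_, ?_, ?_⟩
    · filter_upwards [hσt.eventually k1] with x hx
      exact hx
    · filter_upwards [hσt.eventually k2, hjac] with x hx hj
      show fV (σ x) ξ = (jac h x).det • D.v (b (σ x))
      rw [hj, hx]
    · filter_upwards [hσt.eventually k3, hjac] with x hx hj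
      funext i
      show (-1 : ℂ) ^ (i : ℕ) • fW (σ x) _ = ∑ j, (jac h x).adjugate i j • D.w (b (σ x)) j
      rw [hj, ← hx]
  rw [Γ.loc _ _ _ hE]
  have hha : AnalyticAt ℂ h 0 := by
    refine AnalyticAt.fun_comp (g := b) ?_ (hσa 0)
    rw [hσ0]
    exact hb.ban
  have hh0 : h 0 = b z := by
    show b (σ 0) = b z
    rw [hσ0]
  have := Γ.pull D h 0 hha (by rw [hh0]; exact hb.Dan)
  rw [this, hh0, hjac.self_of_nhds, hσ0]

/-- being basic is an open condition -/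
lemma BasicAt.near (hp : IsLocalHomeomorph p) {y : E} {e : Chart n X} {b : Cm n → Cm (k + 1)}
    {D : Dat q (k + 1) H₁ H₂} (hb : BasicAt p t V W y e b D) :
    ∀ᶠ y' in 𝓝 y, BasicAt p t V W y' e b D := by
  have he := hb.mem
  have h1 : ∀ᶠ z in 𝓝 (b (e (p y))), D.An z := by
    filter_upwards [hb.Dan.1.eventually_analyticAt, hb.Dan.2.1.eventually_analyticAt,
      hb.Dan.2.2.eventually_analyticAt] with z a1 a2 a3
    exact ⟨a1, a2, a3⟩
  have h2 : Tendsto (fun y' => b (e (p y'))) (𝓝 y) (𝓝 (b (e (p y)))) :=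
    (hb.ban.continuousAt.tendsto).comp (tend_ep hp he)
  filter_upwards [at_near hp he, (tend_ep hp he).eventually hb.ban.eventually_analyticAt,
    h2.eventually h1, hb.t_eq.eventually_nhds, hb.V_eq.eventually_nhds,
    hb.W_eq.eventually_nhds] with y' a1 a2 a3 a4 a5 a6
  exact ⟨a1, a2, a3, a4, a5, a6⟩

variable [CompleteSpace H] [IsManifold 𝓘(ℂ, Cm n) ω X]

end main

end Vale.Agent.P284.H338
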