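import Vale.Agent.P284.H625.NS.Spec
import Vale.Agent.P284.H573.HForm
import Vale.Agent.P284.H894.G.Defs
import Vale.Agent.P284.H338.EAlt

/-!
# P284 (helper338), module NS (e): from natural operators to forms on the covering, definitions

`t : E → ℂ^q`, `V` an `H₁`-valued `(k+1)`-form, `W` an `H₂`-valued `k`-form on `E`.  The datum of the
affine slice through `p y` with directions `ξ` (in the chart `e`) is `asl`; `natv Γ` is the value at
`0` of the natural operator `Γ` on this datum.
-/

open scoped Manifold ContDiff Topology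
open Filter

noncomputable section

namespace Vale.Agent.P284.H338

open Vale.Agent.P272.K Vale.Agent.P284.H573 Vale.Agent.P284.H625 Vale.Agent.P284.H894.G

section
variable {n q k : ℕ} {X E : Type} [TopologicalSpace X] [ChartedSpace (Cm n) X]
  [TopologicalSpace E]

/-- In the chart `e` the function `g` is represented by `f` near `y`. -/
structure Rep (p : E → X) (e : Chart n X) (y : E) {T : Type} [NormedAddCommGroup T]
    [NormedSpace ℂ T] (f : Cm n → T) (g : E → T) : Prop where
  an : AnalyticAt ℂ f (e (p y))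
  eq : ∀ᶠ y' in 𝓝 y, g y' = f (e (p y'))

/-- `V` is a holomorphic `k`-form on `E` with values in `T`. -/
structure IsForm (p : E → X) {T : Type} [NormedAddCommGroup T] [NormedSpace ℂ T]
    (V : E → Chart n X → Cm n [⋀^Fin k]→L[ℂ] T) : Prop where
  holo : ∀ y e, At e (p y) → ∃ f, Rep p e y f fun y' => V y' e
  change : ∀ y e e', At e (p y) → At e' (p y) →
    V y e = (V y e').compContinuousLinearMap (fderiv ℂ (fun z => e' (e.symm z)) (e (p y)))

variable {H₁ H₂ : Type} [NormedAddCommGroup H₁] [InnerProductSpace ℂ H₁]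
  [NormedAddCommGroup H₂] [InnerProductSpace ℂ H₂]

/-- The datum of the affine slice `x ↦ z + ∑ x_j ξ_j`. -/
def asl (ft : Cm n → Cm q) (fV : Cm n → Cm n [⋀^Fin (k + 1)]→L[ℂ] H₁)
    (fW : Cm n → Cm n [⋀^Fin k]→L[ℂ] H₂) (z : Cm n) (ξ : Fin (k + 1) → Cm n) :
    Dat q (k + 1) H₁ H₂ where
  t x := ft (z + ∑ j, x j • ξ j)
  v x := fV (z + ∑ j, x j • ξ j) ξ
  w x i := (-1 : ℂ) ^ (i : ℕ) • fW (z + ∑ j, x j • ξ j) fun l => ξ (i.succAbove l)

variable {m : ℕ} {H : Type} [NormedAddCommGroup H] [InnerProductSpace ℂ H]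

open Classical in
/-- The section over `E` attached to the natural operator `Γ`. -/
def natv (Γ : NatOp q (k + 1) H₁ H₂ m H) (p : E → X) (t : E → Cm q)
    (V : E → Chart n X → Cm n [⋀^Fin (k + 1)]→L[ℂ] H₁)
    (W : E → Chart n X → Cm n [⋀^Fin k]→L[ℂ] H₂) (y : E) (e : Chart n X)
    (ξ : Fin (k + 1) → Cm n) : H :=
  if h : (∃ f, Rep p e y f t) ∧ (∃ f, Rep p e y f fun y' => V y' e) ∧
      (∃ f, Rep p e y f fun y' => W y' e) then
    Γ.op (asl h.1.choose h.2.1.choose h.2.2.choose (e (p y)) ξ) 0 else 0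

/-- The matrix of the differential of `b` on the vectors `ξ`. -/
def dm {R : ℕ} (b : Cm n → Cm R) (z : Cm n) (ξ : Fin R → Cm n) : Matrix (Fin R) (Fin R) ℂ :=
  Matrix.of fun i j => fderiv ℂ b z (ξ j) i

/-- Near `y` the data `t, V, W` are, in the chart `e`, pulled back from the datum `D` on `ℂ^(k+1)`
by `b`. -/
structure BasicAt (p : E → X) (t : E → Cm q) (V : E → Chart n X → Cm n [⋀^Fin (k + 1)]→L[ℂ] H₁)
    (W : E → Chart n X → Cm n [⋀^Fin k]→L[ℂ] H₂) (y : E) (e : Chart n X) (b : Cm n → Cm (k + 1))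
    (D : Dat q (k + 1) H₁ H₂) : Prop where
  mem : At e (p y)
  ban : AnalyticAt ℂ b (e (p y))
  Dan : D.An (b (e (p y)))
  t_eq : ∀ᶠ y' in 𝓝 y, t y' = D.t (b (e (p y')))
  V_eq : ∀ᶠ y' in 𝓝 y, ∀ ξ, V y' e ξ = (dm b (e (p y')) ξ).det • D.v (b (e (p y')))
  W_eq : ∀ᶠ y' in 𝓝 y, ∀ (ξ : Fin (k + 1) → Cm n) (i : Fin (k + 1)),
    ((-1 : ℂ) ^ (i : ℕ) • W y' e fun l => ξ (i.succAbove l)) =
      ∑ j, (dm b (e (p y')) ξ).adjugate i j • D.w (b (e (p y'))) j

/-- `t, V, W` are holomorphic data on `E`, which are locally pulled back from `ℂ^(k+1)` at the points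
of a dense set. -/
structure EDat (p : E → X) (t : E → Cm q) (V : E → Chart n X → Cm n [⋀^Fin (k + 1)]→L[ℂ] H₁)
    (W : E → Chart n X → Cm n [⋀^Fin k]→L[ℂ] H₂) : Prop where
  ht : ∀ (y : E) (e : Chart n X), At e (p y) → ∃ f, Rep p e y f t
  hV : IsForm p V
  hW : IsForm p W
  basic : Dense {y | ∃ (e : Chart n X) (b : Cm n → Cm (k + 1)) (D : Dat q (k + 1) H₁ H₂),
    BasicAt p t V W y e b D}

/-- The group acts on the data by isometries and translations. -/
def EqAct (Γ : Type) [Group Γ] [MulAction Γ E] (p : E → X) (t : E → Cm q)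
    (V : E → Chart n X → Cm n [⋀^Fin (k + 1)]→L[ℂ] H₁)
    (W : E → Chart n X → Cm n [⋀^Fin k]→L[ℂ] H₂) : Prop :=
  ∀ g : Γ, ∃ (U₁ : H₁ →ₗᵢ[ℂ] H₁) (U₂ : H₂ →ₗᵢ[ℂ] H₂) (c : Cm q), ∀ y, t (g • y) = t y + c ∧
    ∀ e : Chart n X, At e (p y) → (∀ ξ, V (g • y) e ξ = U₁ (V y e ξ)) ∧
      ∀ ξ, W (g • y) e ξ = U₂ (W y e ξ)

end

section wf
variable {M : Type} [AddCommGroup M] [Module ℂ M] {W T : Type} [AddCommGroup W] [Module ℂ W]
  [AddCommGroup T] [Module ℂ T]

/-- the multilinear map `ξ ↦ (∏_j A(ξ_j)_j) μ(B ξ_(q+1), …, B ξ_(q+r))` -/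
def wm {q r : ℕ} (A : M →ₗ[ℂ] Cm q) (B : M →ₗ[ℂ] W) (μ : MultilinearMap ℂ (fun _ : Fin r => W) T) :
    MultilinearMap ℂ (fun _ : Fin (q + r) => M) T where
  toFun ξ := (∏ j, A (ξ (Fin.castAdd r j)) j) • μ fun a => B (ξ (Fin.natAdd q a))
  map_update_add' := by
    intro _ ξ i x y
    have hd : ∀ inst : DecidableEq (Fin (q + r)), inst = instDecidableEqFin _ := fun _ =>
      Subsingleton.elim _ _
    obtain rfl := hd ‹_›
    refine Fin.addCases (fun j => ?_) (fun a => ?_) i
    · have h1 : ∀ u : M, (fun a => B (Function.update ξ (Fin.castAdd r j) u (Fin.natAdd q a))) =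
          fun a => B (ξ (Fin.natAdd q a)) := by
        intro u
        funext a
        rw [Function.update_of_ne]
        intro h
        have := congrArg Fin.val h
        simp at this
        omega
      have h2 : ∀ u : M, (∏ l, A (Function.update ξ (Fin.castAdd r j) u (Fin.castAdd r l)) l) =
          A u j * ∏ l ∈ Finset.univ.erase j, A (ξ (Fin.castAdd r l)) l := by
        intro u
        rw [← Finset.mul_prod_erase _ _ (Finset.mem_univ j)]
        simp only [Function.update_self]
        congr 1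
        refine Finset.prod_congr rfl fun l hl => ?_
        rw [Function.update_of_ne]
        intro h
        exact (Finset.ne_of_mem_erase hl) (Fin.castAdd_injective q r h)
      rw [h1, h1, h1, h2, h2, h2, map_add, Pi.add_apply, add_mul, add_smul]
    · have h1 : ∀ u : M, (∏ l, A (Function.update ξ (Fin.natAdd q a) u (Fin.castAdd r l)) l) =
          ∏ l, A (ξ (Fin.castAdd r l)) l := by
        intro u
        refine Finset.prod_congr rfl fun l _ => ?_
        rw [Function.update_of_ne]
        intro h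
        have := congrArg Fin.val h
        simp at this
        omega
      have h2 : ∀ u : M, (fun c => B (Function.update ξ (Fin.natAdd q a) u (Fin.natAdd q c))) =
          Function.update (fun c => B (ξ (Fin.natAdd q c))) a (B u) := by
        intro u
        funext c
        by_cases hc : c = a
        · subst hc; simp
        · rw [Function.update_of_ne hc, Function.update_of_ne]
          intro h
          exact hc (Fin.natAdd_injective r q h)
      rw [h1, h1, h1, h2, h2, h2, map_add, MultilinearMap.map_update_add, smul_add]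
  map_update_smul' := by
    intro _ ξ i c x
    have hd : ∀ inst : DecidableEq (Fin (q + r)), inst = instDecidableEqFin _ := fun _ =>
      Subsingleton.elim _ _
    obtain rfl := hd ‹_›
    refine Fin.addCases (fun j => ?_) (fun a => ?_) i
    · have h1 : ∀ u : M, (fun a => B (Function.update ξ (Fin.castAdd r j) u (Fin.natAdd q a))) =
          fun a => B (ξ (Fin.natAdd q a)) := by
        intro u
        funext a
        rw [Function.update_of_ne]
        intro h
        have := congrArg Fin.val h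
        simp at this
        omega
      have h2 : ∀ u : M, (∏ l, A (Function.update ξ (Fin.castAdd r j) u (Fin.castAdd r l)) l) =
          A u j * ∏ l ∈ Finset.univ.erase j, A (ξ (Fin.castAdd r l)) l := by
        intro u
        rw [← Finset.mul_prod_erase _ _ (Finset.mem_univ j)]
        simp only [Function.update_self]
        congr 1
        refine Finset.prod_congr rfl fun l hl => ?_
        rw [Function.update_of_ne]
        intro h
        exact (Finset.ne_of_mem_erase hl) (Fin.castAdd_injective q r h)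
      rw [h1, h1, h2, h2, map_smul, Pi.smul_apply, smul_eq_mul, mul_assoc, smul_smul]
    · have h1 : ∀ u : M, (∏ l, A (Function.update ξ (Fin.natAdd q a) u (Fin.castAdd r l)) l) =
          ∏ l, A (ξ (Fin.castAdd r l)) l := by
        intro u
        refine Finset.prod_congr rfl fun l _ => ?_
        rw [Function.update_of_ne]
        intro h
        have := congrArg Fin.val h
        simp at this
        omega
      have h2 : ∀ u : M, (fun c => B (Function.update ξ (Fin.natAdd q a) u (Fin.natAdd q c))) =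
          Function.update (fun c => B (ξ (Fin.natAdd q c))) a (B u) := by
        intro u
        funext c
        by_cases hc : c = a
        · subst hc; simp
        · rw [Function.update_of_ne hc, Function.update_of_ne]
          intro h
          exact hc (Fin.natAdd_injective r q h)
      rw [h1, h1, h2, h2, map_smul, MultilinearMap.map_update_smul, smul_comm]

/-- the value on `ξ` of the form `dt_1 ∧ … ∧ dt_q ∧ μ(Θ, …, Θ)`, `A = dt`, `B = Θ` (no factorials) -/
def wf {q r : ℕ} (A : M →ₗ[ℂ] Cm q) (B : M →ₗ[ℂ] W) (μ : MultilinearMap ℂ (fun _ : Fin r => W) T) :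
    M [⋀^Fin (q + r)]→ₗ[ℂ] T :=
  MultilinearMap.alternatization (wm A B μ)

lemma wf_apply {q r : ℕ} (A : M →ₗ[ℂ] Cm q) (B : M →ₗ[ℂ] W)
    (μ : MultilinearMap ℂ (fun _ : Fin r => W) T) (ξ : Fin (q + r) → M) :
    wf A B μ ξ = ∑ σ : Equiv.Perm (Fin (q + r)), (Equiv.Perm.sign σ : ℤ) •
      ((∏ j, A (ξ (σ (Fin.castAdd r j))) j) • μ fun a => B (ξ (σ (Fin.natAdd q a)))) := by
  rw [wf, MultilinearMap.alternatization_apply]
  rfl

end wf

end Vale.Agent.P284.H338
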