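import Vale.Agent.P284.H119.Kaz
import Vale.Agent.P284.H894.G.Amen
import Mathlib.Analysis.InnerProductSpace.l2Space
import Mathlib.GroupTheory.QuotientGroup.Basic

/-!
# P284 (helper338), T3: induced representations

`K` normal in `Γ`, `Γ ⧸ K` amenable, `K` without property (T): there are orthogonal representations of
`Γ` without nonzero `K`-invariant vectors, with almost `Γ`-invariant unit vectors.
-/

open scoped InnerProductSpace Pointwise ENNReal
open Set

noncomputable section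

namespace Vale.Agent.P284.H338.Ind

open Vale.Agent.P284.H894.G Vale.Agent.P284.H119.Kaz

section tw
variable {α H : Type} [NormedAddCommGroup H] [InnerProductSpace ℝ H]

/-- square summable functions -/
abbrev L2H (α H : Type) [NormedAddCommGroup H] [InnerProductSpace ℝ H] : Type :=
  lp (fun _ : α => H) 2

lemma memℓp_tw (e : Equiv.Perm α) (u : α → (H ≃ₗᵢ[ℝ] H)) (f : L2H α H) :
    Memℓp (fun x => u x (f (e x))) 2 := by
  have h := lp.memℓp f
  rw [memℓp_gen_iff (by norm_num)] at h ⊢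
  simp only [LinearIsometryEquiv.norm_map]
  exact h.comp_injective e.injective

/-- the twisted permutation -/
def tw (e : Equiv.Perm α) (u : α → (H ≃ₗᵢ[ℝ] H)) : L2H α H ≃ₗᵢ[ℝ] L2H α H :=
  { toLinearEquiv :=
      { toFun := fun f => ⟨fun x => u x (f (e x)), memℓp_tw e u f⟩
        invFun := fun f => ⟨fun x => (u (e.symm x)).symm (f (e.symm x)),
          memℓp_tw e.symm (fun x => (u (e.symm x)).symm) f⟩
        map_add' := fun f g => by
          apply Subtype.ext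
          funext x
          exact map_add (u x) (f (e x)) (g (e x))
        map_smul' := fun c f => by
          apply Subtype.ext
          funext x
          exact map_smul (u x) c (f (e x))
        left_inv := fun f => by
          apply Subtype.ext
          funext x
          show (u (e.symm x)).symm (u (e.symm x) (f (e (e.symm x)))) = f x
          rw [e.apply_symm_apply, LinearIsometryEquiv.symm_apply_apply]
        right_inv := fun f => by
          apply Subtype.ext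
          funext x
          show u x ((u (e.symm (e x))).symm (f (e.symm (e x)))) = f x
          rw [e.symm_apply_apply, LinearIsometryEquiv.apply_symm_apply] }
    norm_map' := fun f => by
      rw [lp.norm_eq_tsum_rpow (by norm_num), lp.norm_eq_tsum_rpow (by norm_num)]
      congr 1
      have h : ∀ x, ‖(show L2H α H from ⟨fun x => u x (f (e x)), memℓp_tw e u f⟩) x‖ =
          ‖f (e x)‖ := fun x => (u x).norm_map _
      simp only [LinearEquiv.coe_mk, LinearMap.coe_mk, AddHom.coe_mk]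
      refine (tsum_congr fun x => ?_).trans (e.tsum_eq fun x => ‖f x‖ ^ (2 : ℝ≥0∞).toReal)
      rw [h x] }

@[simp] lemma tw_apply (e : Equiv.Perm α) (u : α → (H ≃ₗᵢ[ℝ] H)) (f : L2H α H) (x : α) :
    tw e u f x = u x (f (e x)) := rfl

lemma hasSum_norm_sq (f : L2H α H) : HasSum (fun x => ‖f x‖ ^ 2) (‖f‖ ^ 2) := by
  have h := lp.hasSum_inner (𝕜 := ℝ) f f
  simp only [real_inner_self_eq_norm_sq] at h
  exact h

open Classical in
/-- the vector `∑_{x ∈ A} v δ_x` -/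
def vec (A : Set α) (hA : A.Finite) (v : H) : L2H α H :=
  ⟨fun x => if x ∈ A then v else 0, (memℓp_zero (hA.subset fun x hx => by
    by_contra h
    exact hx (by simp [h]))).of_exponent_ge (zero_le)⟩

open Classical in
lemma vec_apply (A : Set α) (hA : A.Finite) (v : H) (x : α) :
    vec A hA v x = if x ∈ A then v else 0 := rfl

open Classical in
lemma hasSum_ind {A : Set α} (hA : A.Finite) (c : ℝ) :
    HasSum (fun x => if x ∈ A then c else 0) (A.ncard * c) := by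
  have h : HasSum (fun x => if x ∈ A then c else 0)
      (∑ x ∈ hA.toFinset, if x ∈ A then c else 0) :=
    hasSum_sum_of_ne_finset_zero fun x hx => by
      rw [if_neg]
      simpa using hx
  have h2 : (∑ x ∈ hA.toFinset, if x ∈ A then c else 0) = A.ncard * c := by
    rw [Finset.sum_congr rfl fun x hx => if_pos (by simpa using hx), Finset.sum_const,
      nsmul_eq_mul, Set.ncard_eq_toFinset_card A hA]
  rwa [h2] at h

lemma norm_vec {A : Set α} (hA : A.Finite) (v : H) : ‖vec A hA v‖ ^ 2 = A.ncard * ‖v‖ ^ 2 := by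
  classical
  have h := hasSum_ind hA (‖v‖ ^ 2)
  have h2 : (fun x => ‖vec A hA v x‖ ^ 2) = fun x => if x ∈ A then ‖v‖ ^ 2 else 0 := by
    funext x
    rw [vec_apply]
    split_ifs <;> simp
  rw [← h2] at h
  exact (hasSum_norm_sq (vec A hA v)).unique h

/-- the estimate for the twisted permutation -/
lemma norm_tw_sub {A : Set α} (hA : A.Finite) (v : H) (e : Equiv.Perm α)
    (u : α → (H ≃ₗᵢ[ℝ] H)) {δ : ℝ} (hδ : ∀ x ∈ A, e x ∈ A → ‖u x v - v‖ ≤ δ) :
    ‖tw e u (vec A hA v) - vec A hA v‖ ^ 2 ≤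
      A.ncard * δ ^ 2 + ((A \ (e ⁻¹' A)).ncard + ((e ⁻¹' A) \ A).ncard) * ‖v‖ ^ 2 := by
  classical
  have hA' : (e ⁻¹' A).Finite := hA.preimage e.injective.injOn
  have h1 := hasSum_ind hA (δ ^ 2)
  have h2 := hasSum_ind (hA.subset (sdiff_subset (s := A) (t := e ⁻¹' A))) (‖v‖ ^ 2)
  have h3 := hasSum_ind (hA'.subset (sdiff_subset (s := e ⁻¹' A) (t := A))) (‖v‖ ^ 2)
  have h4 := hasSum_norm_sq (tw e u (vec A hA v) - vec A hA v)
  have h5 := hasSum_le (fun x => ?_) h4 (h1.add (h2.add h3))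
  · rw [add_mul]
    exact h5
  · show ‖tw e u (vec A hA v) x - vec A hA v x‖ ^ 2 ≤ _
    rw [tw_apply, vec_apply, vec_apply]
    by_cases hx : x ∈ A <;> by_cases hx' : e x ∈ A
    · have h6 : ‖u x v - v‖ ^ 2 ≤ δ ^ 2 := pow_le_pow_left₀ (norm_nonneg _) (hδ x hx hx') 2
      simp [hx, hx', h6]
    · simp only [hx, hx', if_true, if_false, map_zero, zero_sub, norm_neg, mem_sdiff,
        mem_preimage, not_false_eq_true, and_self, not_true_eq_false, and_false, add_zero]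
      nlinarith [sq_nonneg δ]
    · simp only [hx, hx', if_true, if_false, map_zero, sub_zero, mem_sdiff,
        mem_preimage, not_false_eq_true, and_self, not_true_eq_false, and_true, add_zero,
        zero_add, LinearIsometryEquiv.norm_map]
      simp
    · simp [hx, hx']

end tw

section ind
variable {Γ : Type} [Group Γ] (K : Subgroup Γ) {H : Type} [NormedAddCommGroup H]
  [InnerProductSpace ℝ H]

/-- the cocycle `s(x)⁻¹ g s(g⁻¹ x)` -/
def kc (g : Γ) (x : Γ ⧸ K) : K :=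
  ⟨x.out⁻¹ * (g * (g⁻¹ • x).out), by
    rw [← QuotientGroup.eq]
    have h1 : ((x.out : Γ) : Γ ⧸ K) = x := QuotientGroup.out_eq' x
    have h2 : (((g⁻¹ • x).out : Γ) : Γ ⧸ K) = g⁻¹ • x := QuotientGroup.out_eq' _
    rw [h1]
    show x = g • (((g⁻¹ • x).out : Γ) : Γ ⧸ K)
    rw [h2, smul_inv_smul]⟩

lemma kc_mul (g h : Γ) (x : Γ ⧸ K) : kc K (g * h) x = kc K g x * kc K h (g⁻¹ • x) := by
  apply Subtype.ext
  show x.out⁻¹ * (g * h * ((g * h)⁻¹ • x).out) =
    x.out⁻¹ * (g * (g⁻¹ • x).out) * ((g⁻¹ • x).out⁻¹ * (h * (h⁻¹ • g⁻¹ • x).out))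
  rw [mul_inv_rev, mul_smul]
  group

lemma kc_one (x : Γ ⧸ K) : kc K 1 x = 1 := by
  apply Subtype.ext
  show x.out⁻¹ * (1 * ((1 : Γ)⁻¹ • x).out) = 1
  simp

/-- the induced representation -/
def ind (σ : K →* (H ≃ₗᵢ[ℝ] H)) : Γ →* (L2H (Γ ⧸ K) H ≃ₗᵢ[ℝ] L2H (Γ ⧸ K) H) where
  toFun g := tw (MulAction.toPerm g⁻¹) fun x => σ (kc K g x)
  map_one' := by
    ext f x
    show σ (kc K 1 x) (f ((1 : Γ)⁻¹ • x)) = f x
    rw [kc_one, map_one, inv_one, one_smul]
    rfl
  map_mul' g h := by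
    ext f x
    show σ (kc K (g * h) x) (f ((g * h)⁻¹ • x)) =
      σ (kc K g x) (σ (kc K h (g⁻¹ • x)) (f (h⁻¹ • g⁻¹ • x)))
    rw [kc_mul, map_mul, mul_inv_rev, mul_smul]
    rfl

lemma ind_apply (σ : K →* (H ≃ₗᵢ[ℝ] H)) (g : Γ) (f : L2H (Γ ⧸ K) H) (x : Γ ⧸ K) :
    ind K σ g f x = σ (kc K g x) (f (g⁻¹ • x)) := rfl

/-- no `K`-invariant vectors -/
theorem ind_inv [K.Normal] {σ : K →* (H ≃ₗᵢ[ℝ] H)} (hσ : ∀ η : H, (∀ k, σ k η = η) → η = 0)
    {f : L2H (Γ ⧸ K) H} (hf : ∀ k ∈ K, ind K σ k f = f) : f = 0 := by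
  apply Subtype.ext
  funext x
  show f x = 0
  refine hσ _ fun k => ?_
  -- `k = s(x)⁻¹ k' s(x)`
  set k' : Γ := x.out * k * x.out⁻¹ with hk'
  have hk'K : k' ∈ K := Subgroup.Normal.conj_mem inferInstance _ k.2 _
  have h1 : k'⁻¹ • x = x := by
    have h2 : ((x.out : Γ) : Γ ⧸ K) = x := QuotientGroup.out_eq' x
    rw [← h2]
    show ((k'⁻¹ * x.out : Γ) : Γ ⧸ K) = ((x.out : Γ) : Γ ⧸ K)
    rw [eq_comm, QuotientGroup.eq, hk']
    have : x.out⁻¹ * ((x.out * (k : Γ) * x.out⁻¹)⁻¹ * x.out) = (k : Γ)⁻¹ := by group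
    rw [this]
    exact K.inv_mem k.2
  have h3 : kc K k' x = k := by
    apply Subtype.ext
    show x.out⁻¹ * (k' * (k'⁻¹ • x).out) = k
    rw [h1, hk']
    group
  have h4 := congrArg (fun f : L2H (Γ ⧸ K) H => f x) (hf k' hk'K)
  simp only [ind_apply, h1, h3] at h4
  exact h4

/-- **(R1)**: `K` normal, `Γ ⧸ K` amenable, `K` without property (T): almost `Γ`-invariant unit vectors in
orthogonal representations of `Γ` without nonzero `K`-invariant vectors. -/
theorem exists_rep [K.Normal] (hF : Folner (Γ ⧸ K)) (hK : ¬ Kazhdan K) (S : Set Γ)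
    (hS : S.Finite) {ε : ℝ} (hε : 0 < ε) :
    ∃ (H : Type) (_ : NormedAddCommGroup H) (_ : InnerProductSpace ℝ H) (_ : CompleteSpace H)
      (π : Γ →* (H ≃ₗᵢ[ℝ] H)) (ξ : H), ‖ξ‖ = 1 ∧ (∀ s ∈ S, ‖π s ξ - ξ‖ ≤ ε) ∧
      ∀ η : H, (∀ k ∈ K, π k η = η) → η = 0 := by
  classical
  -- a Folner set for `S ∪ S⁻¹`
  set T : Set (Γ ⧸ K) := (fun g : Γ => (g : Γ ⧸ K)) '' (S ∪ S⁻¹) with hT
  have hTf : T.Finite := (hS.union hS.inv).image _
  have hε4 : 0 < ε ^ 2 / 4 := by positivity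
  obtain ⟨A, hA, hAne, hAF⟩ := hF T hTf (ε ^ 2 / 4) hε4
  -- the finite subset of `K`
  set S' : Set K := {k | ∃ g ∈ S, ∃ x ∈ A, kc K g x = k} with hS'
  have hS'f : S'.Finite := by
    refine ((hS.prod hA).image fun y : Γ × (Γ ⧸ K) => kc K y.1 y.2).subset ?_
    rintro k ⟨g, hg, x, hx, rfl⟩
    exact ⟨(g, x), ⟨hg, hx⟩, rfl⟩
  obtain ⟨H, i1, i2, i3, σ, v, hv, hσ, hσ0⟩ := not_kazhdan hK hS'f.toFinset
    (ε := ε / 2) (by positivity)
  have hN : (0 : ℝ) < A.ncard := by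
    exact_mod_cast (Set.ncard_pos hA).2 hAne
  set c : ℝ := (√(A.ncard : ℝ))⁻¹ with hc
  have hc0 : 0 < c := inv_pos.2 (Real.sqrt_pos.2 hN)
  have hc2 : (A.ncard : ℝ) * c ^ 2 = 1 := by
    rw [hc, inv_pow, Real.sq_sqrt hN.le]
    exact mul_inv_cancel₀ hN.ne'
  refine ⟨L2H (Γ ⧸ K) H, inferInstance, inferInstance, inferInstance, ind K σ,
    vec A hA (c • v), ?_, ?_, fun η hη => ind_inv K hσ0 hη⟩
  · have h1 := norm_vec hA (c • v)
    rw [norm_smul, hv, mul_one, Real.norm_eq_abs, sq_abs, hc2] at h1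
    exact (sq_eq_sq₀ (norm_nonneg _) zero_le_one).1 (by rw [h1, one_pow])
  · intro g hg
    have h1 := norm_tw_sub hA (c • v) (MulAction.toPerm g⁻¹) (fun x => σ (kc K g x))
      (δ := c * (ε / 2)) (fun x hx _ => by
        rw [map_smul, ← smul_sub, norm_smul, Real.norm_eq_abs, abs_of_pos hc0]
        exact mul_le_mul_of_nonneg_left (hσ _ (by
          simpa using ⟨g, hg, x, hx, rfl⟩)) hc0.le)
    have h2 : (MulAction.toPerm g⁻¹ : Equiv.Perm (Γ ⧸ K)) ⁻¹' A = (g : Γ ⧸ K) • A := by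
      ext x
      rw [mem_preimage, Set.mem_smul_set_iff_inv_smul_mem, MulAction.toPerm_apply]
      have h3 : g⁻¹ • x = (g : Γ ⧸ K)⁻¹ • x := by
        obtain ⟨a, rfl⟩ := QuotientGroup.mk_surjective x
        rfl
      rw [h3]
    have h3 : ((((g : Γ ⧸ K) • A) \ A).ncard : ℝ) ≤ ε ^ 2 / 4 * A.ncard :=
      hAF _ ⟨g, Or.inl hg, rfl⟩
    have h4 : ((((g : Γ ⧸ K)⁻¹ • A) \ A).ncard : ℝ) ≤ ε ^ 2 / 4 * A.ncard :=
      hAF _ ⟨g⁻¹, Or.inr (by simpa using hg), rfl⟩
    have h5 : A \ ((g : Γ ⧸ K) • A) = (g : Γ ⧸ K) • (((g : Γ ⧸ K)⁻¹ • A) \ A) := by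
      rw [Set.smul_set_sdiff, smul_inv_smul]
    rw [h2, h5, Set.ncard_smul_set, norm_smul, hv, mul_one, Real.norm_eq_abs, sq_abs] at h1
    have h6 : ‖ind K σ g (vec A hA (c • v)) - vec A hA (c • v)‖ ^ 2 ≤ ε ^ 2 := by
      refine h1.trans ?_
      have h7 : (A.ncard : ℝ) * (c * (ε / 2)) ^ 2 = ε ^ 2 / 4 := by
        have : (A.ncard : ℝ) * (c * (ε / 2)) ^ 2 = (A.ncard * c ^ 2) * (ε ^ 2 / 4) := by ring
        rw [this, hc2, one_mul]
      have h8 : (((((g : Γ ⧸ K)⁻¹ • A) \ A).ncard : ℝ) +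
          (((g : Γ ⧸ K) • A) \ A).ncard) * c ^ 2 ≤ ε ^ 2 / 2 := by
        calc _ ≤ (ε ^ 2 / 4 * A.ncard + ε ^ 2 / 4 * A.ncard) * c ^ 2 :=
              mul_le_mul_of_nonneg_right (add_le_add h4 h3) (sq_nonneg c)
          _ = ε ^ 2 / 2 * (A.ncard * c ^ 2) := by ring
          _ = _ := by rw [hc2, mul_one]
      rw [h7]
      nlinarith [sq_nonneg ε]
    exact (sq_le_sq₀ (norm_nonneg _) hε.le).1 h6

end ind

end Vale.Agent.P284.H338.Ind
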