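import Vale.Agent.P284.H338.AdS
import Vale.Agent.P284.H625.NS.LocForm

/-!
# P284 (helper338): `LocFormStmt` from helper625's theorem
-/

namespace Vale.Agent.P284.H338

open Vale.Agent.P284.H625

theorem locFormStmt : LocFormStmt := by
  intro n q r W T₂ _ _ _ _ _ S₂ t s z₀ ht hs hc hrel hsu hmax f hf
  obtain ⟨b, F, h⟩ := locForm' S₂ ht hs hc hrel hsu hmax f hf
  exact ⟨b, F, h.b_an, h.b_surj, h.F_an, h.t_eq, h.isW, h.coord⟩

end Vale.Agent.P284.H338
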