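import Vale.Agent.P284.H338.Rank
import Vale.Agent.P284.H338.EDatS
import Vale.Agent.P284.H501.ExtU
import Vale.Agent.P284.H501.Core.Th

/-!
# P284 (helper338): `NS2Stmt` from the alternative `NSGStmt` for the data of maximal rank
-/

open scoped Manifold ContDiff Topology
open Filter Set

noncomputable section

namespace Vale.Agent.P284.H338

open Vale.Agent.P272.K Vale.Agent.P284.H894 Vale.Agent.P284.H894.G Vale.Agent.P284.H894.V
  Vale.Agent.P284.H894.W Vale.Agent.P284.H573 Vale.Agent.P284.H213.Grp Vale.Agent.P284.H213.Q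
  Vale.Agent.P284.H619 Vale.Agent.P284.H378 Vale.Agent.P284.H998 Vale.Agent.P284.H501
  Vale.Agent.P284.H625

/-- **NSG**: the alternative for a relative form with the data of maximal rank. -/
def NSGStmt : Prop :=
  ∀ (n q r : ℕ) (X : Type) [TopologicalSpace X] [T2Space X] [CompactSpace X] [ConnectedSpace X]
    [ChartedSpace (Cm n) X] [IsManifold 𝓘(ℂ, Cm n) ω X] (E Γ : Type) [TopologicalSpace E]
    [ConnectedSpace E] [Group Γ] [MulAction Γ E] (p : E → X), IsGalois Γ p →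
    ∀ (t : E → Cm q) (c : Γ → Cm q), (∀ g y, t (g • y) = t y + c g) →
    ∀ (W T₂ T₁ T₀ : Type) [NormedAddCommGroup W] [InnerProductSpace ℂ W] [CompleteSpace W]
      [NormedAddCommGroup T₂] [InnerProductSpace ℂ T₂]
      [NormedAddCommGroup T₁] [InnerProductSpace ℂ T₁] [CompleteSpace T₁]
      [NormedAddCommGroup T₀] [InnerProductSpace ℂ T₀] [CompleteSpace T₀]
      (S : E → Chart n X → Cm n [⋀^Fin (q + 1)]→L[ℂ] W)
      (S₂ : TPow W T₂ (r + 2)) (S₁ : TPow W T₁ (r + 1)) (S₀ : TPow W T₀ r)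
      (V : E → Chart n X → Cm n [⋀^Fin (q + (r + 1))]→L[ℂ] T₁)
      (V' : E → Chart n X → Cm n [⋀^Fin (q + r)]→L[ℂ] T₀), SDat p t S S₂ S₁ S₀ V V' →
    ∀ π : Γ →* (W ≃ₗᵢ[ℂ] W),
      (∀ (g : Γ) y e, At e (p y) → ∀ ξ, S (g • y) e ξ = π g (S y e ξ)) →
    ∀ Θ : E → Chart n X → (Cm n →L[ℂ] W), Core.IsTh p t S Θ →
    (∃ O : Set E, IsOpen O ∧ O.Nonempty ∧ ∀ y₀ ∈ O, ∃ a : W, a ≠ 0 ∧
      ∀ᶠ y in 𝓝 y₀, t y = t y₀ → ∃ e, At e (p y) ∧ ∃ ξ ∈ VS p t y e, Θ y e ξ = a) ∨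
    (∃ (s k m : ℕ) (H : Type) (_ : NormedAddCommGroup H)
      (_ : InnerProductSpace ℂ H) (_ : CompleteSpace H)
      (v : E → Chart n X → (Fin (q + (r + 1)) → Cm n) → H) (U : Γ → (H →ₗᵢ[ℂ] H))
      (N : Cm k →L[ℂ] Cm q) (𝒢 : Set E), 𝒢.Nonempty ∧ LeafE s p t m v U π Θ N 𝒢)

theorem ns2_of (hG : NSGStmt) : Core.NS2Stmt := by
  intro n X _ _ _ _ _ _ w hw E Γ _ _ _ _ p hp q F c hF hFg hex W _ _ _ π S Θ hS
  obtain ⟨B, hF⟩ := hF
  have hrep := Core.rep_exists hF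
  have hreg : ∀ y (e : Chart n X) f, At e (p y) → H501.Rep p F y e f →
      ∃ᶠ z in 𝓝 (e (p y)), Function.Surjective (fderiv ℂ f z) := by
    rcases Nat.eq_zero_or_pos q with h0 | h0
    · subst h0
      intro y e f he hf
      refine (Eventually.of_forall fun z => ?_).frequently
      intro v
      exact ⟨0, Subsingleton.elim _ _⟩
    · exact Core.reg_freq h0 hp.cov hF hex
  obtain ⟨r, T₂, i1, i2, i3, T₁, j1, j2, j3, T₀, k1, k2, k3, S₂, S₁, S₀, V, V', h⟩ :=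
    exists_rank extStmt hp.cov hrep hreg hS.rel hS.closed hS.ne
  rcases hG n q r X E Γ p hp F c hFg W T₂ T₁ T₀ S S₂ S₁ S₀ V V' h π hS.equi Θ hS.th with
    h1 | ⟨s, k, m, H, l1, l2, l3, v, U, N, 𝒢, h1⟩
  · exact Or.inl h1
  · exact Or.inr ⟨r, s, k, m, H, l1, l2, l3, v, U, N, 𝒢, h1⟩

end Vale.Agent.P284.H338
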