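import Vale.Agent.P284.H338.EDatS
import Vale.Agent.P284.H338.LocF
import Vale.Agent.P284.H338.EAct
import Vale.Agent.P284.H338.EForm

/-!
# P284 (helper338): the natural sections of the data of maximal rank: form, equivariance, kernel
-/

open scoped Manifold ContDiff Topology
open Filter

noncomputable section

set_option linter.unusedSectionVars false

namespace Vale.Agent.P284.H338

open Vale.Agent.P272.K Vale.Agent.P284.H573 Vale.Agent.P284.H625 Vale.Agent.P284.H894.G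
  Vale.Agent.P284.H501 Vale.Agent.P284.H894.W

section
variable {n q r : ℕ} {X E : Type} [TopologicalSpace X] [ChartedSpace (Cm n) X]
  [TopologicalSpace E] [ConnectedSpace E] {p : E → X} {t : E → Cm q}
  [IsManifold 𝓘(ℂ, Cm n) ω X]
  {W T₂ T₁ T₀ : Type} [NormedAddCommGroup W] [InnerProductSpace ℂ W] [CompleteSpace W]
  [NormedAddCommGroup T₂] [InnerProductSpace ℂ T₂]
  [NormedAddCommGroup T₁] [InnerProductSpace ℂ T₁] [CompleteSpace T₁]
  [NormedAddCommGroup T₀] [InnerProductSpace ℂ T₀] [CompleteSpace T₀]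
  {S : E → Chart n X → Cm n [⋀^Fin (q + 1)]→L[ℂ] W}
  {S₂ : TPow W T₂ (r + 2)} {S₁ : TPow W T₁ (r + 1)} {S₀ : TPow W T₀ r}
  {V : E → Chart n X → Cm n [⋀^Fin (q + (r + 1))]→L[ℂ] T₁}
  {V' : E → Chart n X → Cm n [⋀^Fin (q + r)]→L[ℂ] T₀} {G : Type} [Group G] [MulAction G E]

/-- **the fields `form`, `equi`, `triv` of `LeafE`** and the isometries needed in the sheet property -/
theorem nat_fields (hp : IsGalois G p) (h : SDat p t S S₂ S₁ S₀ V V') {c : G → Cm q}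
    (ht : ∀ g y, t (g • y) = t y + c g) {π : G →* (W ≃ₗᵢ[ℂ] W)}
    (hS : ∀ (g : G) y e, At e (p y) → ∀ ξ, S (g • y) e ξ = π g (S y e ξ)) :
    EDat (k := q + r) p t V V' ∧ EqAct (k := q + r) G p t V V' ∧
    ∃ (U₁ : G → (T₁ →ₗᵢ[ℂ] T₁)) (U₂ : G → (T₀ →ₗᵢ[ℂ] T₀)),
      (∀ g a, U₁ g (S₁.μ a) = S₁.μ fun i => π g (a i)) ∧
      (∀ g a, U₂ g (S₀.μ a) = S₀.μ fun i => π g (a i)) ∧
      ∀ (m : ℕ) (H : Type) [NormedAddCommGroup H] [InnerProductSpace ℂ H] [CompleteSpace H]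
        (Γ : NatOp q (q + (r + 1)) T₁ T₀ m H), ∃ U : G → (H →ₗᵢ[ℂ] H),
        (∀ (g : G) (c : Cm q) (D : Dat q (q + (r + 1)) T₁ T₀) x, D.An x →
          Γ.op (D.act (U₁ g) (U₂ g) c) x = U g (Γ.op D x)) ∧
        HForm n (q + (r + 1)) m p H (natv (k := q + r) Γ p t V V') ∧
        (∀ (g : G) y e, At e (p y) → ∀ ξ, natv (k := q + r) Γ p t V V' (g • y) e ξ =
          U g (natv (k := q + r) Γ p t V V' y e ξ)) ∧
        ∀ g : G, π g = 1 → ∀ y e, At e (p y) → ∀ ξ, natv (k := q + r) Γ p t V V' (g • y) e ξ =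
          natv (k := q + r) Γ p t V V' y e ξ := by
  have hl : IsLocalHomeomorph p := hp.cov.isLocalHomeomorph
  have hpg : ∀ (g : G) y, p (g • y) = p y := fun g y => ((hp.orb y (g • y)).2 ⟨g, rfl⟩).symm
  have hd : EDat (k := q + r) p t V V' := h.edat locFormStmt hl
  have hA : EqAct (k := q + r) G p t V V' := h.eqAct hl hp.cont hpg fun g =>
    ⟨(π g).toLinearIsometry, c g, ht g, hS g⟩
  refine ⟨hd, hA, ?_⟩
  choose U₁ hU₁ using fun g : G => S₁.map (π g).toLinearIsometry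
  choose U₂ hU₂ using fun g : G => S₀.map (π g).toLinearIsometry
  refine ⟨U₁, U₂, hU₁, hU₂, fun m H _ _ _ Γ => ?_⟩
  choose U hU using fun g : G => Γ.iso (U₁ g) (U₂ g)
  refine ⟨U, hU, hform_natv hp hd hA Γ, fun g y e he ξ => ?_, fun g hg y e he ξ => ?_⟩
  · have h1 := h.act (g := g) hl (hp.cont g) (hpg g) (hU₁ g) (hU₂ g) (ht g) (hS g)
    obtain ⟨D, hD, h2, h3⟩ := natv_act (k := q + r) hl hp.cont hpg hd Γ h1 he ξ
    rw [h2, h3]
    exact hU g (c g) D 0 hD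
  · have h1 := h.fix (g := g) hl (hp.cont g) (hpg g) (ht g) (fun y e he ξ => by
      rw [hS g y e he ξ, hg]
      rfl)
    exact natv_fix (k := q + r) hl hp.cont hpg hd Γ h1 y e he ξ

end

end Vale.Agent.P284.H338
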