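import Vale.Agent.P284.H338.EAd
import Vale.Agent.P284.H625.NS.LocForm

/-!
# P284 (helper338): the exterior model in new coordinates; the sheet property with an isometry
-/

open scoped Topology
open Filter

noncomputable section

set_option linter.unusedSectionVars false

namespace Vale.Agent.P284.H338

open Vale.Agent.P272.K Vale.Agent.P284.H625 Vale.Agent.P284.H501

/-- analytic local inverse -/
theorem exists_loc_inv {R : ℕ} {b : Cm R → Cm R} {z₀ : Cm R} (hb : AnalyticAt ℂ b z₀)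
    (hs : Function.Surjective (fderiv ℂ b z₀)) :
    ∃ κ : Cm R → Cm R, AnalyticAt ℂ κ (b z₀) ∧ κ (b z₀) = z₀ ∧ (∀ᶠ z in 𝓝 z₀, κ (b z) = z) ∧
      ∀ᶠ x in 𝓝 (b z₀), b (κ x) = x := by
  obtain ⟨s, φ, χ, hLs, hφ, hφ0, hχ, hχ0, hχφ, hφχ, hbχ⟩ := exists_straight hb hs
  set L := fderiv ℂ b z₀ with hL
  have hinj : Function.Injective L := by
    have : Function.Injective (L : Cm R →ₗ[ℂ] Cm R) :=
      LinearMap.injective_iff_surjective.2 hs
    exact this
  have hsL : ∀ u, s (L u) = u := fun u => hinj (hLs (L u))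
  have e0 : s (b z₀ - b z₀) = 0 := by rw [sub_self, map_zero]
  have hsan : AnalyticAt ℂ (fun x => s (x - b z₀)) (b z₀) :=
    (s.analyticAt _).comp (analyticAt_id.sub analyticAt_const)
  have hst : Tendsto (fun x => s (x - b z₀)) (𝓝 (b z₀)) (𝓝 0) := by
    have := hsan.continuousAt.tendsto
    rwa [e0] at this
  have hφt : Tendsto φ (𝓝 z₀) (𝓝 0) := by
    have := hφ.continuousAt.tendsto
    rwa [hφ0] at this
  refine ⟨fun x => χ (s (x - b z₀)), AnalyticAt.fun_comp (by rw [e0]; exact hχ) hsan,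
    by show χ (s (b z₀ - b z₀)) = z₀; rw [e0, hχ0], ?_, ?_⟩
  · filter_upwards [hχφ, hφt.eventually hbχ] with z h1 h2
    rw [h1] at h2
    have h3 : b z - b z₀ = L (φ z) := by rw [h2]; abel
    rw [h3, hsL, h1]
  · filter_upwards [hst.eventually hbχ] with x h1
    rw [h1, hLs]
    abel

section
variable {q r : ℕ} {W T₁ T₀ : Type} [NormedAddCommGroup W] [InnerProductSpace ℂ W]
  [CompleteSpace W]
  [NormedAddCommGroup T₁] [InnerProductSpace ℂ T₁] [CompleteSpace T₁]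
  [NormedAddCommGroup T₀] [InnerProductSpace ℂ T₀] [CompleteSpace T₀]
  {S₁ : TPow W T₁ (r + 1)} {S₀ : TPow W T₀ r}

lemma fderiv_tq_comp {κ : Cm (q + (r + 1)) → Cm (q + (r + 1))} {x : Cm (q + (r + 1))}
    (hκ : DifferentiableAt ℂ κ x) {c : Cm q} (ht : ∀ᶠ x in 𝓝 x, tq (κ x) = tq x + c) :
    (tqL q (r + 1)).comp (fderiv ℂ κ x) = tqL q (r + 1) := by
  have h1 : HasFDerivAt (fun x => tqL q (r + 1) (κ x)) ((tqL q (r + 1)).comp (fderiv ℂ κ x)) x :=
    (tqL q (r + 1)).hasFDerivAt.comp x hκ.hasFDerivAt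
  have h2 : HasFDerivAt (fun x => tqL q (r + 1) (κ x)) (tqL q (r + 1)) x :=
    (((tqL q (r + 1)).hasFDerivAt).add_const c).congr_of_eventuallyEq ht
  exact h1.unique h2

/-- the exterior model in new coordinates -/
theorem exD_pull {κ : Cm (q + (r + 1)) → Cm (q + (r + 1))} {F : Cm (q + (r + 1)) → W}
    {x : Cm (q + (r + 1))} (hκ : AnalyticAt ℂ κ x) (hF : AnalyticAt ℂ F (κ x))
    (ht : ∀ᶠ x in 𝓝 x, tq (κ x) = tq x) :
    (exD q r S₁ S₀ fun x => F (κ x)).Eqv ((exD q r S₁ S₀ F).pull κ) x := by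
  have hev : ∀ᶠ x in 𝓝 x, (∀ v, fderiv ℂ (fun x => F (κ x)) x v =
      fderiv ℂ F (κ x) (fderiv ℂ κ x v)) ∧
      (tqL q (r + 1)).comp (fderiv ℂ κ x) = tqL q (r + 1) := by
    filter_upwards [hκ.eventually_analyticAt, hκ.continuousAt.eventually hF.eventually_analyticAt,
      ht.eventually_nhds] with x h1 h2 h3
    refine ⟨fun v => ?_, fderiv_tq_comp (c := 0) h1.differentiableAt (by simpa using h3)⟩
    rw [fderiv_fun_comp x h2.differentiableAt h1.differentiableAt]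
    rfl
  refine ⟨?_, ?_, ?_⟩
  · filter_upwards [ht] with x h1
    exact h1.symm
  · filter_upwards [hev] with x ⟨h1, h2⟩
    have h3 := alt_cols (gfA (tqL q (r + 1)) (fderiv ℂ F (κ x) : _ →ₗ[ℂ] W)
      S₁.μ.toMultilinearMap) fun c => fderiv ℂ κ x (Pi.single c 1)
    simp only [gfA_apply] at h3
    show gf (r + 1) (tqL q (r + 1)) (fun v => fderiv ℂ (fun x => F (κ x)) x v) S₁.μ
      (fun c => Pi.single c 1) = (jac κ x).det • gf (r + 1) (tqL q (r + 1))
        (fun v => fderiv ℂ F (κ x) v) S₁.μ fun c => Pi.single c 1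
    have h4 : (fun v => fderiv ℂ (fun x => F (κ x)) x v) =
        fun v => fderiv ℂ F (κ x) (fderiv ℂ κ x v) := funext h1
    rw [h4]
    nth_rewrite 1 [← h2]
    exact h3
  · filter_upwards [hev] with x ⟨h1, h2⟩
    funext i
    have h3 := alt_cols' (k := q + r) (gfA (tqL q (r + 1)) (fderiv ℂ F (κ x) : _ →ₗ[ℂ] W)
      S₀.μ.toMultilinearMap) (fun c => fderiv ℂ κ x (Pi.single c 1)) i
    simp only [gfA_apply] at h3
    show ((-1 : ℂ) ^ (i : ℕ)) • gf r (tqL q (r + 1)) (fun v => fderiv ℂ (fun x => F (κ x)) x v)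
      S₀.μ (fun c : Fin (q + r) =>
        (Pi.single ((i : Fin (q + r + 1)).succAbove c) 1 : Cm (q + r + 1))) =
      ∑ j, (jac κ x).adjugate i j • (((-1 : ℂ) ^ (j : ℕ)) • gf r (tqL q (r + 1))
        (fun v => fderiv ℂ F (κ x) v) S₀.μ fun c : Fin (q + r) =>
          (Pi.single ((j : Fin (q + r + 1)).succAbove c) 1 : Cm (q + r + 1)))
    have h4 : (fun v => fderiv ℂ (fun x => F (κ x)) x v) =
        fun v => fderiv ℂ F (κ x) (fderiv ℂ κ x v) := funext h1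
    rw [h4]
    nth_rewrite 1 [← h2]
    exact h3

/-- the exterior model and isometries -/
theorem exD_act {F : Cm (q + (r + 1)) → W} {x : Cm (q + (r + 1))} (hF : AnalyticAt ℂ F x)
    {U : W →ₗᵢ[ℂ] W} {U₁ : T₁ →ₗᵢ[ℂ] T₁} {U₂ : T₀ →ₗᵢ[ℂ] T₀}
    (hU₁ : ∀ a, U₁ (S₁.μ a) = S₁.μ fun i => U (a i))
    (hU₂ : ∀ a, U₂ (S₀.μ a) = S₀.μ fun i => U (a i)) :
    (exD q r S₁ S₀ fun x => U (F x)).Eqv ((exD q r S₁ S₀ F).act U₁ U₂ 0) x := by
  have hev : ∀ᶠ x in 𝓝 x, ∀ v, fderiv ℂ (fun x => U (F x)) x v = U (fderiv ℂ F x v) := by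
    filter_upwards [hF.eventually_analyticAt] with x h1 v
    have h2 : HasFDerivAt (fun x => U (F x)) (U.toContinuousLinearMap.comp (fderiv ℂ F x)) x :=
      U.toContinuousLinearMap.hasFDerivAt.comp x h1.differentiableAt.hasFDerivAt
    rw [h2.fderiv]
    rfl
  refine ⟨?_, ?_, ?_⟩
  · refine Eventually.of_forall fun x => ?_
    exact (add_zero _).symm
  · filter_upwards [hev] with x h1
    show gf (r + 1) (tqL q (r + 1)) (fun v => fderiv ℂ (fun x => U (F x)) x v) S₁.μ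
        (fun c => Pi.single c 1) =
      U₁ (gf (r + 1) (tqL q (r + 1)) (fun v => fderiv ℂ F x v) S₁.μ fun c => Pi.single c 1)
    rw [show (fun v => fderiv ℂ (fun x => U (F x)) x v) = fun v => U (fderiv ℂ F x v) from
      funext h1]
    exact gf_map (tqL q (r + 1)) (fun v => fderiv ℂ F x v) (fun a => S₁.μ a) (fun a => S₁.μ a)
      (fun w => U w) (U₁ : T₁ →ₗ[ℂ] T₁) hU₁ fun c => Pi.single c 1
  · filter_upwards [hev] with x h1
    funext i
    show ((-1 : ℂ) ^ (i : ℕ)) • gf r (tqL q (r + 1)) (fun v => fderiv ℂ (fun x => U (F x)) x v)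
      S₀.μ (fun c : Fin (q + r) =>
        (Pi.single ((i : Fin (q + r + 1)).succAbove c) 1 : Cm (q + r + 1))) =
      U₂ (((-1 : ℂ) ^ (i : ℕ)) • gf r (tqL q (r + 1)) (fun v => fderiv ℂ F x v) S₀.μ
        fun c : Fin (q + r) =>
          (Pi.single ((i : Fin (q + r + 1)).succAbove c) 1 : Cm (q + r + 1)))
    rw [show (fun v => fderiv ℂ (fun x => U (F x)) x v) = fun v => U (fderiv ℂ F x v) from
      funext h1, map_smul]
    have h5 := gf_map (tqL q (r + 1)) (fun v => fderiv ℂ F x v) (fun a => S₀.μ a)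
      (fun a => S₀.μ a) (fun w => U w) (U₂ : T₀ →ₗ[ℂ] T₀) hU₂ fun c : Fin (q + r) =>
        (Pi.single ((i : Fin (q + r + 1)).succAbove c) 1 : Cm (q + r + 1))
    exact congrArg (fun z => ((-1 : ℂ) ^ (i : ℕ)) • z) h5

/-- the exterior model is adapted -/
theorem adC_exD {F : Cm (q + (r + 1)) → W} {x₀ : Cm (q + (r + 1))} (hF : AnalyticAt ℂ F x₀)
    {f : Fin (r + 1) → W}
    (hd : ∀ᶠ x in 𝓝 x₀, ∀ a : Fin (r + 1), inner ℂ (f a) (F x) = x (Fin.natAdd q a)) :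
    AdC (exD q r S₁ S₀ F) F x₀ (S₁.μ f)
      (fun a => ((-1 : ℂ) ^ (q + (a : ℕ))) • S₀.μ (f ∘ a.succAbove))
      (fun a h => S₁.μ (Function.update f a h)) := by
  refine adC_of S₁ S₀ (exD_an hF) ⟨0, Eventually.of_forall fun x => (add_zero _).symm⟩ hF f ?_
    (Eventually.of_forall fun _ => rfl) (Eventually.of_forall fun _ _ => rfl)
  filter_upwards [hd.eventually_nhds, hF.eventually_analyticAt] with x h1 h2 a c
  have h3 : (fun x => inner ℂ (f a) (F x)) =ᶠ[𝓝 x] fun x => x (Fin.natAdd q a) := by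
    filter_upwards [h1] with x' hx'
    exact hx' a
  have h4 : fderiv ℂ (fun x => inner ℂ (f a) (F x)) x (Pi.single c 1) =
      inner ℂ (f a) (fderiv ℂ F x (Pi.single c 1)) := by
    have := ((innerSL ℂ (f a)).hasFDerivAt.comp x h2.differentiableAt.hasFDerivAt).fderiv
    have h5 : fderiv ℂ (fun x => inner ℂ (f a) (F x)) x =
        (innerSL ℂ (f a)).comp (fderiv ℂ F x) := this
    rw [h5]
    rfl
  rw [← h4, h3.fderiv_eq]
  have h5 : fderiv ℂ (fun x : Cm (q + (r + 1)) => x (Fin.natAdd q a)) x =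
      ContinuousLinearMap.proj (R := ℂ) (φ := fun _ : Fin (q + (r + 1)) => ℂ) (Fin.natAdd q a) :=
    (ContinuousLinearMap.proj (R := ℂ) (φ := fun _ : Fin (q + (r + 1)) => ℂ)
      (Fin.natAdd q a)).hasFDerivAt.fderiv
  rw [h5]
  simp [Pi.single_apply]

/-- **adapted coordinates for a second frame** `f` of `W`: if the component `⟨μ f, v⟩` does not vanish -/
theorem exists_repar {F : Cm (q + (r + 1)) → W} {x₀ : Cm (q + (r + 1))} (hF : AnalyticAt ℂ F x₀)
    {f : Fin (r + 1) → W} (hf : inner ℂ (S₁.μ f) ((exD q r S₁ S₀ F).v x₀) ≠ 0) :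
    ∃ b κ : Cm (q + (r + 1)) → Cm (q + (r + 1)), AnalyticAt ℂ b x₀ ∧ AnalyticAt ℂ κ (b x₀) ∧
      κ (b x₀) = x₀ ∧ (∀ᶠ z in 𝓝 x₀, κ (b z) = z) ∧ (∀ᶠ x in 𝓝 (b x₀), b (κ x) = x) ∧
      (∀ z, tq (b z) = tq z) ∧ (∀ᶠ x in 𝓝 (b x₀), tq (κ x) = tq x) ∧
      ∀ᶠ x in 𝓝 (b x₀), ∀ a : Fin (r + 1), inner ℂ (f a) (F (κ x)) = x (Fin.natAdd q a) := by
  set b : Cm (q + (r + 1)) → Cm (q + (r + 1)) := fun x => bmap q f (tq x, F x) with hb
  have hbtq : ∀ z, tq (b z) = tq z := by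
    intro z
    funext j
    rw [hb]
    simp only [tq, bmap_castAdd]
  have hbna : ∀ z a, b z (Fin.natAdd q a) = inner ℂ (f a) (F z) := fun z a => bmap_natAdd _ _ _ _
  have hban : AnalyticAt ℂ b x₀ :=
    ((bmap q f).analyticAt _).fun_comp (((tqL q (r + 1)).analyticAt x₀).prod hF)
  have hbd : ∀ v, fderiv ℂ b x₀ v = bmap q f (tqL q (r + 1) v, fderiv ℂ F x₀ v) := by
    intro v
    have h3 : HasFDerivAt b ((bmap q f).comp ((tqL q (r + 1)).prod (fderiv ℂ F x₀))) x₀ :=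
      (bmap q f).hasFDerivAt.comp x₀
        ((tqL q (r + 1)).hasFDerivAt.prodMk hF.differentiableAt.hasFDerivAt)
    rw [h3.fderiv]
    rfl
  have hJ : H619.Jd b x₀ (fun c => Pi.single c 1) ≠ 0 := by
    have h1 : inner ℂ (S₁.μ f) ((exD q r S₁ S₀ F).v x₀) =
        (gfM (tqL q (r + 1)) (fun v => fderiv ℂ F x₀ v) f fun c => Pi.single c 1).det :=
      inner_gf S₁ (tqL q (r + 1)) (fun v => fderiv ℂ F x₀ v) f fun c => Pi.single c 1
    rw [h1, gfM_eq] at hf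
    rw [H619.Jd]
    have h2 : (Matrix.of fun i j => fderiv ℂ b x₀ ((fun c => (Pi.single c 1 :
        Cm (q + (r + 1)))) j) i) = Matrix.of fun i c => bmap q f (tqL q (r + 1) (Pi.single c 1),
        fderiv ℂ F x₀ (Pi.single c 1)) i := by
      ext i c
      simp only [Matrix.of_apply, hbd]
    rw [h2]
    exact hf
  obtain ⟨κ, h1, h2, h3, h4⟩ := exists_loc_inv hban (H619.surj_of_Jd hJ)
  refine ⟨b, κ, hban, h1, h2, h3, h4, hbtq, ?_, ?_⟩
  · filter_upwards [h4] with x hx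
    rw [← hbtq, hx]
  · filter_upwards [h4] with x hx a
    rw [← hbna, hx]

end

end Vale.Agent.P284.H338
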