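import Vale.Agent.P284.H338.Sheet1

/-!
# P284 (helper338): the sheet property with an isometry

A germ `ψ` which maps the lines of `U Γ₁(D)` to those of `Γ₁(D)`, `Γ₁ = next Γ₀`, and changes `t` by a
constant, satisfies `F ∘ ψ = U F + C(t)`.
-/

open scoped Topology
open Filter

noncomputable section

set_option linter.unusedSectionVars false

namespace Vale.Agent.P284.H338

open Vale.Agent.P272.K Vale.Agent.P284.H625 Vale.Agent.P284.H501

section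
variable {q r : ℕ} {W T₁ T₀ : Type} [NormedAddCommGroup W] [InnerProductSpace ℂ W]
  [CompleteSpace W]
  [NormedAddCommGroup T₁] [InnerProductSpace ℂ T₁] [CompleteSpace T₁]
  [NormedAddCommGroup T₀] [InnerProductSpace ℂ T₀] [CompleteSpace T₀]
  {S₁ : TPow W T₁ (r + 1)} {S₀ : TPow W T₀ r}

/-- natural operators on the exterior model in new coordinates -/
lemma op_exD_pull {m : ℕ} {H : Type} [NormedAddCommGroup H] [InnerProductSpace ℂ H]
    [CompleteSpace H] (Γ : NatOp q (q + (r + 1)) T₁ T₀ m H)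
    {κ : Cm (q + (r + 1)) → Cm (q + (r + 1))} {F : Cm (q + (r + 1)) → W}
    {x₀ : Cm (q + (r + 1))} (hκ : AnalyticAt ℂ κ x₀) (hF : AnalyticAt ℂ F (κ x₀))
    (ht : ∀ᶠ x in 𝓝 x₀, tq (κ x) = tq x) :
    ∀ᶠ x in 𝓝 x₀, Γ.op (exD q r S₁ S₀ fun x => F (κ x)) x =
      (jac κ x).det ^ m • Γ.op (exD q r S₁ S₀ F) (κ x) := by
  filter_upwards [hκ.eventually_analyticAt, hκ.continuousAt.eventually hF.eventually_analyticAt,
    ht.eventually_nhds] with x h1 h2 h3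
  rw [Γ.loc _ _ _ (exD_pull h1 h2 h3), Γ.pull _ _ _ h1 (exD_an h2)]

/-- the differential of `Γ(D)` is injective on vertical vectors also in new coordinates -/
lemma tr_pull {m : ℕ} {H : Type} [NormedAddCommGroup H] [InnerProductSpace ℂ H]
    [CompleteSpace H] {Γ : NatOp q (q + (r + 1)) T₁ T₀ m H} (hΓ : Nrm Γ)
    {b κ : Cm (q + (r + 1)) → Cm (q + (r + 1))} {F : Cm (q + (r + 1)) → W}
    {x₀ x₀' : Cm (q + (r + 1))} (hb : AnalyticAt ℂ b x₀) (hκ : AnalyticAt ℂ κ x₀')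
    (hx : κ x₀' = x₀) (hF : AnalyticAt ℂ F x₀) (hbκ : ∀ᶠ x in 𝓝 x₀', b (κ x) = x)
    (ht : ∀ᶠ x in 𝓝 x₀', tq (κ x) = tq x) {f : Fin (r + 1) → W}
    (hd : ∀ᶠ x in 𝓝 x₀, ∀ a : Fin (r + 1), inner ℂ (f a) (F x) = x (Fin.natAdd q a))
    (tr : ∀ ξ, tq ξ = 0 → fderiv ℂ (Γ.op (exD q r S₁ S₀ F)) x₀ ξ = 0 → ξ = 0) :
    ∀ ξ, tq ξ = 0 → fderiv ℂ (Γ.op (exD q r S₁ S₀ fun x => F (κ x))) x₀' ξ = 0 → ξ = 0 := by
  subst hx
  intro ξ hξ h0
  set D := exD q r S₁ S₀ F with hD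
  set D' := exD q r S₁ S₀ fun x => F (κ x) with hD'
  have hDan : D.An (κ x₀') := exD_an hF
  have hA := adC_exD (S₁ := S₁) (S₀ := S₀) hF hd
  obtain ⟨δ, hδ⟩ := hΓ (S₁.μ f)
  have hop := op_exD_pull (S₁ := S₁) (S₀ := S₀) Γ hκ hF ht
  have hFκ : AnalyticAt ℂ (fun x => F (κ x)) x₀' := AnalyticAt.fun_comp hF hκ
  have hD'an : D'.An x₀' := exD_an hFκ
  -- the factor
  have hg : (fun x => (jac κ x).det ^ m) =ᶠ[𝓝 x₀'] fun x => inner ℂ δ (Γ.op D' x) := by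
    filter_upwards [hop, hκ.continuousAt.eventually hA.one,
      hκ.continuousAt.eventually hDan.eventually] with x h1 h2 h3
    rw [h1, inner_smul_right, hδ D (κ x) h3, h2, one_pow, mul_one]
  have hjan : AnalyticAt ℂ (fun x => (jac κ x).det) x₀' := jac_det_an hκ
  have hop' : HasFDerivAt (Γ.op D') (fderiv ℂ (Γ.op D') x₀') x₀' :=
    (Γ.anAt hD'an).differentiableAt.hasFDerivAt
  have hgd : fderiv ℂ (fun x => (jac κ x).det ^ m) x₀' ξ = 0 := by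
    rw [hg.fderiv_eq, fderiv_inner_const δ hop'.differentiableAt, h0, inner_zero_right]
  have hcomp : HasFDerivAt (fun x => Γ.op D (κ x))
      ((fderiv ℂ (Γ.op D) (κ x₀')).comp (fderiv ℂ κ x₀')) x₀' :=
    (Γ.anAt hDan).differentiableAt.hasFDerivAt.comp x₀' hκ.differentiableAt.hasFDerivAt
  have hprod : HasFDerivAt (fun x => (jac κ x).det ^ m • Γ.op D (κ x))
      ((jac κ x₀').det ^ m • ((fderiv ℂ (Γ.op D) (κ x₀')).comp (fderiv ℂ κ x₀')) +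
        (fderiv ℂ (fun x => (jac κ x).det ^ m) x₀').smulRight (Γ.op D (κ x₀'))) x₀' :=
    (hjan.fun_pow m).differentiableAt.hasFDerivAt.smul hcomp
  have heq := hop'.unique (hprod.congr_of_eventuallyEq hop)
  have h1 := congrArg (fun L => L ξ) heq
  simp only [_root_.add_apply, _root_.smul_apply,
    ContinuousLinearMap.comp_apply, ContinuousLinearMap.smulRight_apply, hgd, zero_smul,
    add_zero, h0] at h1
  -- the determinant does not vanish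
  have hbd : (fderiv ℂ b (κ x₀')).comp (fderiv ℂ κ x₀') = ContinuousLinearMap.id ℂ _ := by
    have e1 : HasFDerivAt (fun x => b (κ x)) ((fderiv ℂ b (κ x₀')).comp (fderiv ℂ κ x₀')) x₀' :=
      hb.differentiableAt.hasFDerivAt.comp x₀' hκ.differentiableAt.hasFDerivAt
    exact e1.unique ((hasFDerivAt_id x₀').congr_of_eventuallyEq hbκ)
  have hinv : ∀ v, fderiv ℂ b (κ x₀') (fderiv ℂ κ x₀' v) = v := fun v =>
    congrArg (fun L => L v) hbd
  have hdet : (jac κ x₀').det ≠ 0 := by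
    intro hz
    obtain ⟨v, hv, hv'⟩ := Matrix.exists_mulVec_eq_zero_iff.2 hz
    apply hv
    rw [← hinv v]
    have : fderiv ℂ κ x₀' v = 0 := by
      rw [clm_apply_sum (fderiv ℂ κ x₀') v]
      funext i
      have := congrFun hv' i
      simp only [Matrix.mulVec, dotProduct, jac, Matrix.of_apply, Pi.zero_apply] at this
      rw [Finset.sum_apply, Pi.zero_apply, ← this]
      refine Finset.sum_congr rfl fun j _ => ?_
      rw [Pi.smul_apply, smul_eq_mul, mul_comm]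
    rw [this, map_zero]
  have h2 : fderiv ℂ (Γ.op D) (κ x₀') (fderiv ℂ κ x₀' ξ) = 0 :=
    (smul_eq_zero.1 h1.symm).resolve_left (pow_ne_zero m hdet)
  have h3 : tq (fderiv ℂ κ x₀' ξ) = 0 := by
    have e1 := fderiv_tq_comp (c := 0) hκ.differentiableAt (by simpa using ht)
    have e2 := congrArg (fun L => L ξ) e1
    simp only [ContinuousLinearMap.comp_apply, tqL_apply] at e2
    rw [e2, hξ]
  rw [← hinv ξ, tr _ h3 h2, map_zero]

/-- **Sheet property with an isometry.** -/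
theorem sheet_iso {m M : ℕ} (hM : 1 ≤ M) {H K : Type} [NormedAddCommGroup H]
    [InnerProductSpace ℂ H] [CompleteSpace H] [NormedAddCommGroup K] [InnerProductSpace ℂ K]
    [CompleteSpace K] {Γ₀ : NatOp q (q + (r + 1)) T₁ T₀ m H}
    {Γ₁ : NatOp q (q + (r + 1)) T₁ T₀ M K} (hΓ : Nrm Γ₀) (hN : Nxt Γ₀ Γ₁)
    {F : Cm (q + (r + 1)) → W} {x₁ : Cm (q + (r + 1))} (hF₁ : AnalyticAt ℂ F x₁)
    {f : Fin (r + 1) → W}
    (hd₁ : ∀ᶠ x in 𝓝 x₁, ∀ a : Fin (r + 1), inner ℂ (f a) (F x) = x (Fin.natAdd q a))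
    {ψ : Cm (q + (r + 1)) → Cm (q + (r + 1))} (hψ : AnalyticAt ℂ ψ x₁)
    (hF₂ : AnalyticAt ℂ F (ψ x₁))
    (hd₂ : ∀ᶠ x in 𝓝 (ψ x₁), ∀ a : Fin (r + 1), inner ℂ (f a) (F x) = x (Fin.natAdd q a))
    (tr : ∀ ξ, tq ξ = 0 → fderiv ℂ (Γ₀.op (exD q r S₁ S₀ F)) (ψ x₁) ξ = 0 → ξ = 0)
    {U : W →ₗᵢ[ℂ] W} {U₁ : T₁ →ₗᵢ[ℂ] T₁} {U₂ : T₀ →ₗᵢ[ℂ] T₀}
    (hU₁ : ∀ a, U₁ (S₁.μ a) = S₁.μ fun i => U (a i))
    (hU₂ : ∀ a, U₂ (S₀.μ a) = S₀.μ fun i => U (a i)) {UK : K →ₗᵢ[ℂ] K}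
    (hUK : ∀ (c : Cm q) (D : Dat q (q + (r + 1)) T₁ T₀) x, D.An x →
      Γ₁.op (D.act U₁ U₂ c) x = UK (Γ₁.op D x)) {c : Cm q}
    (ht : ∀ᶠ x in 𝓝 x₁, tq (ψ x) = tq x + c)
    (hop : ∀ᶠ x in 𝓝 x₁, ∃ a : ℂ,
      UK (Γ₁.op (exD q r S₁ S₀ F) x) = a • Γ₁.op (exD q r S₁ S₀ F) (ψ x)) :
    (∃ C : Cm q → W, ∀ᶠ x in 𝓝 x₁, F (ψ x) = U (F x) + C (tq x)) ∧
    ∀ᶠ x in 𝓝 x₁, ∀ ζ, tq ζ = 0 → fderiv ℂ (fun x => F (ψ x)) x ζ = U (fderiv ℂ F x ζ) := by
  set D := exD q r S₁ S₀ F with hD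
  set f' : Fin (r + 1) → W := fun a => U (f a) with hf'
  set F₁ : Cm (q + (r + 1)) → W := fun x => U (F x) with hF₁'
  set D₁ := exD q r S₁ S₀ F₁ with hD₁
  have hF₁an : AnalyticAt ℂ F₁ x₁ := (U.toContinuousLinearMap.analyticAt _).comp hF₁
  have A1 := adC_exD (S₁ := S₁) (S₀ := S₀) (f := f') hF₁an (by
    filter_upwards [hd₁] with x h1 a
    rw [← h1 a]
    exact U.inner_map_map _ _)
  obtain ⟨δ, hδ⟩ := hN.nrm (S₁.μ f')
  have hDan : D.An x₁ := exD_an hF₁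
  have hDan2 : D.An (ψ x₁) := exD_an hF₂
  have E1 : ∀ᶠ x in 𝓝 x₁, Γ₁.op D₁ x = UK (Γ₁.op D x) := by
    filter_upwards [hF₁.eventually_analyticAt] with x h1
    rw [Γ₁.loc _ _ _ (exD_act h1 hU₁ hU₂), hUK 0 D x (exD_an h1)]
  have hψc := hψ.continuousAt
  -- the factor `a`
  have E2 : ∀ᶠ x in 𝓝 x₁, inner ℂ δ (Γ₁.op D₁ x) = 1 := by
    filter_upwards [A1.one, A1.an.eventually] with x h1 h2
    rw [hδ D₁ x h2, h1, one_pow]
  have E3 : ∀ᶠ x in 𝓝 x₁, ∃ a : ℂ, Γ₁.op D₁ x = a • Γ₁.op D (ψ x) ∧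
      a * inner ℂ (S₁.μ f') (D.v (ψ x)) ^ M = 1 := by
    filter_upwards [hop, E1, E2, hψc.eventually hDan2.eventually] with x ⟨a, h1⟩ h2 h3 h4
    refine ⟨a, h2.trans h1, ?_⟩
    rw [← hδ D (ψ x) h4, ← inner_smul_right, ← h1, ← h2, h3]
  have hne : inner ℂ (S₁.μ f') (D.v (ψ x₁)) ≠ 0 := by
    obtain ⟨a, -, h2⟩ := E3.self_of_nhds
    intro h0
    rw [h0, zero_pow (by omega), mul_zero] at h2
    exact zero_ne_one h2
  -- new coordinates near `ψ x₁`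
  obtain ⟨b, κ, hb, hκ, hκx, hκb, hbκ, hbt, hκt, hd'⟩ := exists_repar hF₂ hne
  set F' : Cm (q + (r + 1)) → W := fun x => F (κ x) with hF'
  have hFκ : AnalyticAt ℂ F (κ (b (ψ x₁))) := by rw [hκx]; exact hF₂
  have hF'an : AnalyticAt ℂ F' (b (ψ x₁)) := AnalyticAt.fun_comp hFκ hκ
  set D' := exD q r S₁ S₀ F' with hD'
  have A2 := adC_exD (S₁ := S₁) (S₀ := S₀) (f := f') hF'an hd'
  have hψ' : AnalyticAt ℂ (fun x => b (ψ x)) x₁ := AnalyticAt.fun_comp hb hψ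
  have hop' : ∀ᶠ x in 𝓝 x₁, Γ₁.op D' (b (ψ x)) = Γ₁.op D₁ x := by
    have k1 := op_exD_pull (S₁ := S₁) (S₀ := S₀) Γ₁ hκ hFκ hκt
    have k2 : ∀ᶠ y in 𝓝 (b (ψ x₁)), inner ℂ δ (Γ₁.op D' y) = 1 := by
      filter_upwards [A2.one, A2.an.eventually] with y h1 h2
      rw [hδ D' y h2, h1, one_pow]
    filter_upwards [hψ'.continuousAt.eventually k1, hψ'.continuousAt.eventually k2, E2, E3,
      hψc.eventually hκb] with x h1 h2 h3 ⟨a, h4, h5⟩ h6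
    have ha : a ≠ 0 := by
      intro h0
      rw [h0, zero_mul] at h5
      exact zero_ne_one h5
    rw [h6] at h1
    have h7 : Γ₁.op D' (b (ψ x)) = ((jac κ (b (ψ x))).det ^ M * a⁻¹) • Γ₁.op D₁ x := by
      rw [h1, h4, smul_smul, mul_assoc, inv_mul_cancel₀ ha, mul_one]
    have h8 : (jac κ (b (ψ x))).det ^ M * a⁻¹ = 1 := by
      rw [h7, inner_smul_right, h3, mul_one] at h2
      exact h2
    rw [h7, h8, one_smul]
  have ht' : ∀ᶠ x in 𝓝 x₁, tq (b (ψ x)) = tq x + c := by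
    filter_upwards [ht] with x h1
    rw [hbt, h1]
  have tr' := tr_pull (S₁ := S₁) (S₀ := S₀) hΓ hb hκ hκx hF₂ hbκ hκt hd₂ tr
  obtain ⟨-, -, hs⟩ := sheet hM hΓ hN A1 A2 hψ' rfl hop' ht' tr'
  have hs' : ∀ᶠ x in 𝓝 x₁, F (ψ x) = U (F x) +
      (F' (b (ψ (sec x₁ (tq x)))) - F₁ (sec x₁ (tq x))) := by
    filter_upwards [hs, hψc.eventually hκb] with x h1 h2
    rw [← h1, hF']
    simp only [h2]
  refine ⟨⟨fun t => F' (b (ψ (sec x₁ t))) - F₁ (sec x₁ t), hs'⟩, ?_⟩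
  filter_upwards [hs'.eventually_nhds, hψ.eventually_analyticAt,
    hψc.eventually hF₂.eventually_analyticAt, hF₁.eventually_analyticAt] with x h1 h2 h3 h4 ζ hζ
  have e1 : HasFDerivAt (fun x => F (ψ x)) (fderiv ℂ (fun x => F (ψ x)) x) x :=
    (AnalyticAt.fun_comp h3 h2).differentiableAt.hasFDerivAt
  have e2 : HasFDerivAt (fun x => U (F x)) (U.toContinuousLinearMap.comp (fderiv ℂ F x)) x :=
    U.toContinuousLinearMap.hasFDerivAt.comp x h4.differentiableAt.hasFDerivAt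
  have e3 : HasDerivAt (fun s : ℂ => x + s • ζ) ζ 0 := by
    simpa using ((hasDerivAt_id (0 : ℂ)).smul_const ζ).const_add x
  have e4 : HasDerivAt (fun s : ℂ => (fun x => F (ψ x) - U (F x)) (x + s • ζ))
      ((fderiv ℂ (fun x => F (ψ x)) x - U.toContinuousLinearMap.comp (fderiv ℂ F x)) ζ) 0 := by
    have h5 : HasFDerivAt (fun x => F (ψ x) - U (F x))
        (fderiv ℂ (fun x => F (ψ x)) x - U.toContinuousLinearMap.comp (fderiv ℂ F x))
        (x + (0 : ℂ) • ζ) := by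
      rw [zero_smul, add_zero]
      exact e1.sub e2
    exact h5.comp_hasDerivAt (0 : ℂ) e3
  have e5 : (fun s : ℂ => (fun x => F (ψ x) - U (F x)) (x + s • ζ)) =ᶠ[𝓝 0]
      fun _ => F' (b (ψ (sec x₁ (tq x)))) - F₁ (sec x₁ (tq x)) := by
    have h5 : Tendsto (fun s : ℂ => x + s • ζ) (𝓝 0) (𝓝 x) := by
      have := e3.continuousAt.tendsto
      simpa using this
    filter_upwards [h5.eventually h1] with s hs
    have h6 : tq (x + s • ζ) = tq x := by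
      have : tqL q (r + 1) (x + s • ζ) = tqL q (r + 1) x + s • tqL q (r + 1) ζ := by
        rw [map_add, map_smul]
      rw [tqL_apply, tqL_apply, tqL_apply, hζ, smul_zero, add_zero] at this
      exact this
    show F (ψ (x + s • ζ)) - U (F (x + s • ζ)) = _
    rw [hs, h6]
    abel
  have e6 := e4.unique ((hasDerivAt_const (0 : ℂ) _).congr_of_eventuallyEq e5)
  rw [_root_.sub_apply, sub_eq_zero] at e6
  exact e6

end

end Vale.Agent.P284.H338
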